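import Vale.Agent.P219.GDefs

/-!
A local homeomorphism along which short paths have bounded lifts is a covering map.
-/

open scoped ContDiff Topology Manifold
open Set Filter

noncomputable section

namespace Vale.Agent.P219.R



theorem lift_extend {X M : Type*} [TopologicalSpace X] [TopologicalSpace M] {p : X → M}
    (hp : IsLocalHomeomorph p) {γ : ℝ → M} (hγ : ContinuousOn γ (Icc 0 1)) {x y : X} {T : ℝ}
    (hT : T ∈ Icc (0 : ℝ) 1) (hy : p y = γ T)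
    (h : ∀ V ∈ 𝓝 y, ∀ η > 0, ∃ s ∈ Icc 0 T, T - η < s ∧ ∃ u : ℝ → X, ContinuousOn u (Icc 0 s) ∧
      u 0 = x ∧ (∀ r ∈ Icc 0 s, p (u r) = γ r) ∧ u s ∈ V) :
    ∃ η > 0, ∃ u : ℝ → X, ContinuousOn u (Icc 0 (min 1 (T + η))) ∧ u 0 = x ∧
      ∀ r ∈ Icc 0 (min 1 (T + η)), p (u r) = γ r := by
  obtain ⟨q, hq, rfl⟩ := hp y
  obtain ⟨η, hη, H⟩ := Metric.mem_nhdsWithin_iff.1
    (hγ T hT (q.open_target.mem_nhds (hy ▸ q.map_source hq)))
  obtain ⟨s, hs, hs', u, hu, hu0, hu1, hu2⟩ := h _ (q.open_source.mem_nhds hq) η hη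
  have hm : ∀ r ∈ Icc s (min 1 (T + η / 2)), r ∈ Icc (0 : ℝ) 1 ∧ γ r ∈ q.target := fun r hr => by
    have h1 : r ∈ Icc (0 : ℝ) 1 := ⟨hs.1.trans hr.1, hr.2.trans (min_le_left _ _)⟩
    have h2 := hr.2.trans (min_le_right _ _)
    exact ⟨h1, H ⟨by rw [Real.ball_eq_Ioo]; exact ⟨by linarith [hr.1], by linarith⟩, h1⟩⟩
  have hsm : s ≤ min 1 (T + η / 2) := le_min (hs.2.trans hT.2) (by linarith [hs.2])
  refine ⟨η / 2, half_pos hη, fun r => if r ≤ s then u r else q.symm (γ r), ?_,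
    (if_pos hs.1).trans hu0, fun r hr => ?_⟩
  · rw [← Icc_union_Icc_eq_Icc hs.1 hsm]
    refine ContinuousOn.union_of_isClosed (hu.congr fun r hr => if_pos hr.2)
      ((q.continuousOn_symm.comp (hγ.mono fun r hr => (hm r hr).1) fun r hr =>
        (hm r hr).2).congr fun r hr => ?_) isClosed_Icc isClosed_Icc
    by_cases k : r ≤ s
    · obtain rfl := le_antisymm k hr.1
      simp only [le_rfl, if_true, Function.comp, ← hu1 r ⟨hs.1, le_rfl⟩, q.left_inv hu2]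
    · exact if_neg k
  · by_cases k : r ≤ s
    · simp only [k, if_true, hu1 r ⟨hr.1, k⟩]
    · simp only [k, if_false, q.right_inv (hm r ⟨(not_le.1 k).le, hr.2⟩).2]

theorem lift_path {X M : Type*} [TopologicalSpace X] [TopologicalSpace M] [T2Space X] [T2Space M]
    {p : X → M} (hp : IsLocalHomeomorph p) {γ : ℝ → M} (hγ : ContinuousOn γ (Icc 0 1)) {x : X}
    (hx : p x = γ 0) {K : Set X} (hK : IsCompact K)
    (h : ∀ T ∈ Icc (0 : ℝ) 1, ∀ u : ℝ → X, ContinuousOn u (Ico 0 T) → u 0 = x →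
      (∀ s ∈ Ico 0 T, p (u s) = γ s) → ∀ s ∈ Ico 0 T, u s ∈ K) :
    ∃ u : ℝ → X, ContinuousOn u (Icc 0 1) ∧ u 0 = x ∧ ∀ s ∈ Icc (0 : ℝ) 1, p (u s) = γ s := by
  classical
  let S : Set ℝ := {T | T ∈ Icc (0 : ℝ) 1 ∧ ∃ u : ℝ → X, ContinuousOn u (Icc 0 T) ∧ u 0 = x ∧
    ∀ s ∈ Icc 0 T, p (u s) = γ s}
  have h0 : (0 : ℝ) ∈ S := ⟨by simp, fun _ => x, continuousOn_const, rfl, fun s hs => by
    rw [le_antisymm hs.2 hs.1, hx]⟩
  have hb : BddAbove S := ⟨1, fun T hT => hT.1.2⟩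
  have hT : sSup S ∈ Icc (0 : ℝ) 1 := ⟨le_csSup hb h0, csSup_le ⟨0, h0⟩ fun T hT => hT.1.2⟩
  have hd : ∀ T ∈ S, ∀ s ∈ Icc 0 T, s ∈ S := fun T ⟨k, u, h1, h2, h3⟩ s hs =>
    ⟨⟨hs.1, hs.2.trans k.2⟩, u, h1.mono (Icc_subset_Icc_right hs.2), h2,
      fun r hr => h3 r ⟨hr.1, hr.2.trans hs.2⟩⟩
  let v : ℝ → X := fun s => if k : s ∈ S then k.2.choose s else x
  have hv : ∀ T ∈ S, ContinuousOn v (Icc 0 T) ∧ v 0 = x ∧ ∀ s ∈ Icc 0 T, p (v s) = γ s := by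
    intro T hT
    obtain ⟨u, h1, h2, h3⟩ := hT.2
    have e : EqOn v u (Icc 0 T) := fun s hs => by
      have k := hd T hT s hs
      obtain ⟨k1, k2, k3⟩ := k.2.choose_spec
      exact (dif_pos k).trans ((T2Space.isSeparatedMap p).eqOn_of_comp_eqOn
        hp.isLocallyInjective isPreconnected_Icc k1 (h1.mono (Icc_subset_Icc_right hs.2))
        (fun r hr => (k3 r hr).trans (h3 r ⟨hr.1, hr.2.trans hs.2⟩).symm) ⟨le_rfl, hs.1⟩
        (k2.trans h2.symm) ⟨hs.1, le_rfl⟩)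
    exact ⟨h1.congr e, (e ⟨le_rfl, hT.1.1⟩).trans h2, fun s hs => e hs ▸ h3 s hs⟩
  have hS : ∀ s ∈ Ico 0 (sSup S), ∃ T ∈ S, s < T := fun s hs =>
    exists_lt_of_lt_csSup ⟨0, h0⟩ hs.2
  have hS' : ∀ s ∈ Ico 0 (sSup S), s ∈ S := fun s hs =>
    let ⟨T, h1, h2⟩ := hS s hs; hd T h1 s ⟨hs.1, h2.le⟩
  obtain ⟨y, hy, H⟩ : ∃ y, p y = γ (sSup S) ∧ ∀ V ∈ 𝓝 y, ∀ η > 0, ∃ s ∈ Icc 0 (sSup S),
      sSup S - η < s ∧ ∃ u : ℝ → X, ContinuousOn u (Icc 0 s) ∧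
      u 0 = x ∧ (∀ r ∈ Icc 0 s, p (u r) = γ r) ∧ u s ∈ V := by
    rcases hT.1.eq_or_lt with k | k
    · refine ⟨x, k ▸ hx, fun V hV η hη => ⟨0, ⟨le_rfl, hT.1⟩, by linarith, v, (hv 0 h0).1,
        (hv 0 h0).2.1, (hv 0 h0).2.2, (hv 0 h0).2.1 ▸ mem_of_mem_nhds hV⟩⟩
    have e1 : ∀ᶠ s in 𝓝[<] (sSup S), s ∈ Ico 0 (sSup S) := Ico_mem_nhdsLT k
    have e2 := h _ hT v (fun s hs => by
      obtain ⟨T, h1, h2⟩ := hS s hs
      exact ((hv T h1).1 s ⟨hs.1, h2.le⟩).mono_of_mem_nhdsWithin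
        (mem_of_superset (inter_mem_nhdsWithin _ (Iio_mem_nhds h2))
          fun r hr => ⟨hr.1.1, le_of_lt hr.2⟩)) (hv 0 h0).2.1
      fun s hs => (hv s (hS' s hs)).2.2 s ⟨hs.1, le_rfl⟩
    obtain ⟨y, -, hy⟩ := hK.exists_mapClusterPt (f := 𝓝[<] (sSup S)) (u := v)
      (tendsto_principal.2 (e1.mono e2))
    refine ⟨y, ?_, fun V hV η hη => ?_⟩
    · have t1 : Tendsto (p ∘ v) (𝓝[<] (sSup S)) (𝓝 (γ (sSup S))) := by
        refine ((hγ _ hT).mono_of_mem_nhdsWithin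
          (e1.mono fun s hs => ⟨hs.1, hs.2.le.trans hT.2⟩)).tendsto.congr' ?_
        exact e1.mono fun s hs => ((hv s (hS' s hs)).2.2 s ⟨hs.1, le_rfl⟩).symm
      exact eq_of_nhds_neBot ((hy.continuousAt_comp hp.continuous.continuousAt).clusterPt.mono t1)
    · obtain ⟨s, h1, h2, h3⟩ := ((hy.frequently hV).and_eventually (e1.and
        (mem_nhdsWithin_of_mem_nhds (Ioi_mem_nhds (sub_lt_self _ hη))))).exists
      exact ⟨s, ⟨h2.1, h2.2.le⟩, h3, v, (hv s (hS' s h2)).1, (hv 0 h0).2.1,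
        (hv s (hS' s h2)).2.2, h1⟩
  obtain ⟨η, hη, k⟩ := lift_extend hp hγ hT hy H
  have k1 := le_csSup hb (a := min 1 (sSup S + η))
    ⟨⟨le_min zero_le_one (by linarith [hT.1]), min_le_left _ _⟩, k⟩
  rwa [min_eq_left ((min_le_iff.1 k1).elim (fun j => by linarith) fun j => by linarith)] at k

theorem lift_section {X M : Type*} [TopologicalSpace X] [TopologicalSpace M] [T2Space X] [T2Space M]
    {p : X → M} (hp : IsLocalHomeomorph p) {U : Set M} {c : M → ℝ → M} {x : X} (hx : p x ∈ U)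
    (hc : ContinuousOn (fun z : M × ℝ => c z.1 z.2) (U ×ˢ Icc 0 1))
    (h0 : ∀ b ∈ U, c b 0 = p x ∧ c b 1 = b) (h1 : ∀ s ∈ Icc (0 : ℝ) 1, c (p x) s = p x)
    (h : ∀ b ∈ U, ∃ K : Set X, IsCompact K ∧ ∀ T ∈ Icc (0 : ℝ) 1, ∀ u : ℝ → X,
      ContinuousOn u (Ico 0 T) → u 0 = x → (∀ s ∈ Ico 0 T, p (u s) = c b s) →
        ∀ s ∈ Ico 0 T, u s ∈ K) :
    ∃ σ : U → X, Continuous σ ∧ (∀ b, p (σ b) = b) ∧ σ ⟨p x, hx⟩ = x := by
  have k : ∀ b : U, ∃ u : ℝ → X, ContinuousOn u (Icc 0 1) ∧ u 0 = x ∧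
      ∀ s ∈ Icc (0 : ℝ) 1, p (u s) = c b s := fun b =>
    let ⟨_, hK, H⟩ := h b b.2
    lift_path hp (hc.comp (f := fun s => (b.1, s)) (by fun_prop) fun s hs => ⟨b.2, hs⟩)
      (h0 b b.2).1.symm hK H
  choose u h2 h3 h4 using k
  have := hp.continuous_lift (T2Space.isSeparatedMap p) (A := U)
    ⟨fun z => c z.2 z.1, hc.comp_continuous (f := fun z : unitInterval × U => (z.2.1, z.1.1))
      (by fun_prop) fun z => ⟨z.2.2, z.1.2⟩⟩ (g := fun z => u z.2 z.1)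
    (funext fun z => h4 z.2 z.1 z.1.2) (continuous_const.congr fun b => (h3 b).symm)
    fun b => (h2 b).comp_continuous continuous_subtype_val fun s => s.2
  refine ⟨fun b => u b 1, this.comp (.prodMk_right 1), fun b =>
    (h4 b 1 ⟨zero_le_one, le_rfl⟩).trans (h0 b b.2).2, ?_⟩
  exact ((T2Space.isSeparatedMap p).constOn_of_comp hp.isLocallyInjective isPreconnected_Icc
    (h2 ⟨p x, hx⟩) (fun a ha b hb => ((h4 _ a ha).trans (h1 a ha)).trans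
      ((h4 _ b hb).trans (h1 b hb)).symm) ⟨zero_le_one, le_rfl⟩ ⟨le_rfl, zero_le_one⟩).trans (h3 _)

theorem covering_of_bounded_lifts {X M : Type*} [TopologicalSpace X] [TopologicalSpace M]
    [T2Space X] [T2Space M] [Nonempty X] {p : X → M} (hp : IsLocalHomeomorph p)
    (h : ∀ y0 : M, ∃ U : Set M, IsOpen U ∧ y0 ∈ U ∧ ∃ c : M → M → ℝ → M,
      (∀ a ∈ U, ContinuousOn (fun z : M × ℝ => c a z.1 z.2) (U ×ˢ Icc 0 1)) ∧
      (∀ a ∈ U, ∀ b ∈ U, c a b 0 = a ∧ c a b 1 = b ∧ ∀ s ∈ Icc (0 : ℝ) 1,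
        c a b s ∈ U ∧ c a a s = a) ∧
      ∀ x, p x ∈ U → ∀ b ∈ U, ∃ K : Set X, IsCompact K ∧ ∀ T ∈ Icc (0 : ℝ) 1, ∀ u : ℝ → X,
        ContinuousOn u (Ico 0 T) → u 0 = x → (∀ s ∈ Ico 0 T, p (u s) = c (p x) b s) →
        ∀ s ∈ Ico 0 T, u s ∈ K) : IsCoveringMap p := by
  intro y0
  obtain ⟨U, hU, hy0, c, hc, h0, h1⟩ := h y0
  have k : ∀ x (hx : p x ∈ U), ∃ σ : U → X, Continuous σ ∧ (∀ b, p (σ b) = b) ∧
      σ ⟨p x, hx⟩ = x := fun x hx =>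
    lift_section hp hx (hc _ hx) (fun b hb => ⟨(h0 _ hx b hb).1, (h0 _ hx b hb).2.1⟩)
      (fun s hs => ((h0 _ hx _ hx).2.2 s hs).2) (h1 x hx)
  choose σ h2 h3 h4 using k
  have : PreconnectedSpace U := isPreconnected_iff_preconnectedSpace.1 <|
    isPreconnected_of_forall_pair fun a ha b hb => ⟨c a b '' Icc 0 1,
      image_subset_iff.2 fun s hs => ((h0 a ha b hb).2.2 s hs).1,
      ⟨0, by simp, (h0 a ha b hb).1⟩, ⟨1, by simp, (h0 a ha b hb).2.1⟩,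
      isPreconnected_Icc.image _ ((hc a ha).comp (f := fun s => (b, s)) (by fun_prop)
        fun s hs => ⟨hb, hs⟩)⟩
  have hu : ∀ x hx x' hx' b, σ x hx b = σ x' hx' b → σ x hx = σ x' hx' := fun x hx x' hx' =>
    (T2Space.isSeparatedMap p).eq_of_comp_eq hp.isLocallyInjective (h2 x hx) (h2 x' hx')
      (funext fun b => (h3 x hx b).trans (h3 x' hx' b).symm)
  have : DiscreteTopology (p ⁻¹' {y0}) :=
    (IsDiscrete.of_openPartialHomeomorph p subset_rfl fun e _ =>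
      let ⟨φ, a, b⟩ := hp e; ⟨φ, a, b.symm⟩).1
  cases isEmpty_or_nonempty (p ⁻¹' {y0}) with
  | inl hE =>
    exact .of_preimage_eq_empty _ (hU.mem_nhds hy0) (eq_empty_of_forall_notMem fun x hx =>
      hE.false ⟨σ x hx ⟨y0, hy0⟩, h3 x hx _⟩)
  | inr hE =>
    have hm : ∀ i : p ⁻¹' {y0}, p i ∈ U := fun i => (show p i = y0 from i.2).symm ▸ hy0
    have hs : ∀ i : p ⁻¹' {y0}, σ i (hm i) ⟨y0, hy0⟩ = i := fun ⟨i, hi⟩ => by
      obtain rfl : p i = y0 := hi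
      exact h4 _ _
    have ho : ∀ i, IsOpen (range (σ i.1 (hm i))) := fun i =>
      (hp.isOpenEmbedding_of_comp ((funext (h3 i (hm i)) : p ∘ σ i (hm i) = Subtype.val) ▸
        hU.isOpenEmbedding_subtypeVal) (h2 i (hm i))).isOpen_range
    refine .of_trivialization (t := hU.trivializationDiscrete (fun i => range (σ i.1 (hm i))) U
      (fun i W hW => ⟨fun k => (k.preimage hp.continuous).inter (ho i), fun k => ?_⟩)
      (fun i => ?_) (fun i b hb => ⟨_, ⟨⟨b, hb⟩, rfl⟩, h3 _ _ _⟩) (fun i j hij => ?_)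
      fun x hx => ?_) hy0
    · have e : p '' (p ⁻¹' W ∩ range (σ i.1 (hm i))) = W := by
        refine subset_antisymm (image_subset_iff.2 inter_subset_left) fun b hb => ?_
        have := h3 i (hm i) ⟨b, hW hb⟩
        exact ⟨_, ⟨mem_preimage.2 (this.symm ▸ hb), ⟨b, hW hb⟩, rfl⟩, this⟩
      exact e ▸ hp.isOpenMap _ k
    · rintro _ ⟨a, rfl⟩ _ ⟨b, rfl⟩ e
      rw [h3, h3] at e
      rw [Subtype.ext e]
    · refine disjoint_left.2 ?_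
      rintro _ ⟨a, rfl⟩ ⟨b, e⟩
      obtain rfl : b = a := Subtype.ext ((h3 _ _ b).symm.trans ((congrArg p e).trans (h3 _ _ a)))
      exact hij (Subtype.ext (by rw [← hs i, ← hs j, hu _ _ _ _ b e]))
    · refine mem_iUnion.2 ⟨⟨σ x hx ⟨y0, hy0⟩, h3 x hx _⟩, ⟨p x, hx⟩, ?_⟩
      rw [hu _ _ x hx ⟨y0, hy0⟩ (hs ⟨_, h3 x hx _⟩), h4]

end Vale.Agent.P219.R
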