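import Vale.Agent.P219.Gauss
import Vale.Agent.P219.Lift

/-!
The exponential map is a covering; the universal cover in nonpositive curvature.
-/

open scoped ContDiff Topology Manifold
open Set Filter

set_option maxSynthPendingDepth 3

noncomputable section

namespace Vale.Agent.P219.R

variable {n : ℕ}

variable {M : Type*} [TopologicalSpace M] [ChartedSpace (E n) M] [T2Space M]
  [IsManifold (modelWithCornersSelf ℝ (E n)) ∞ M] {g : RMetric n M} [GC g]
  {e e' : OpenPartialHomeomorph M (E n)} {x : M}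

theorem cv_strict (he : e ∈ At n M) (hx : x ∈ e.source) (h : ExpInj g e x) (v : (E n))
    (he' : e' ∈ At n M) (hs : expm g e x v ∈ e'.source) :
    ∃ A : (E n) ≃L[ℝ] (E n), HasStrictFDerivAt (fun v => e' (expm g e x v)) (A : (E n) →L[ℝ] (E n)) v ∧
      ∀ w, jac g e x v w e' 1 = A w := by
  obtain ⟨L, hL⟩ := (geo_deriv g he hx v 1).2 e' he' hs
  have h1 : HasStrictFDerivAt (fun v => e' (expm g e x v))
      ((ContinuousLinearMap.fst ℝ (E n) (E n)).comp L) v := hL.fst
  have h2 : ∀ w, jac g e x v w e' 1 = ((ContinuousLinearMap.fst ℝ (E n) (E n)).comp L) w := fun w =>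
    congrArg (· w) h1.hasFDerivAt.fderiv
  have h3 : Function.Injective ((ContinuousLinearMap.fst ℝ (E n) (E n)).comp L).toLinearMap :=
    (injective_iff_map_eq_zero _).2 fun w hw => h v w e' he' hs ((h2 w).trans hw)
  exact ⟨(LinearEquiv.ofInjectiveEndo _ h3).toContinuousLinearEquiv, h1, h2⟩

theorem cv_local (he : e ∈ At n M) (hx : x ∈ e.source) (h : ExpInj g e x) :
    IsLocalHomeomorph (expm g e x) := by
  have hc : Continuous (expm g e x) :=
    continuous_iff_continuousAt.2 fun v => (geo_deriv g he hx v 1).1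
  refine IsLocalHomeomorph.mk _ fun v => ?_
  have hs := mem_chart_source (E n) (expm g e x v)
  obtain ⟨A, hA, -⟩ := cv_strict he hx h v (chart_mem n _) hs
  refine ⟨((hA.toOpenPartialHomeomorph _).trans (chartAt (E n) (expm g e x v)).symm).restrOpen _
    ((chartAt (E n) (expm g e x v)).open_source.preimage hc),
    ⟨⟨hA.mem_toOpenPartialHomeomorph_source, (chartAt (E n) _).map_source hs⟩, hs⟩, fun w hw => ?_⟩
  exact ((chartAt (E n) (expm g e x v)).left_inv hw.2).symm

theorem cv_compact {A : (Bil n)} (hA : PD A) (R : ℝ) : IsCompact {w : (E n) | ip A w w ≤ R} := by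
  have hc : Continuous fun w : (E n) => ip A w w := c0_cont A
  rcases subsingleton_or_nontrivial (E n) with h0 | h0
  · exact (Set.toFinite _).isCompact
  obtain ⟨z, hz, hm⟩ := (isCompact_sphere (0 : (E n)) 1).exists_isMinOn
    (NormedSpace.sphere_nonempty.2 zero_le_one) hc.continuousOn
  have h0 : 0 < ip A z z := ip_pos hA fun h => by simp [h] at hz
  refine Metric.isCompact_of_isClosed_isBounded (isClosed_le hc continuous_const)
    ((Metric.isBounded_closedBall (x := (0 : (E n))) (r := √(R / ip A z z))).subset fun w hw => ?_)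
  rcases eq_or_ne w 0 with rfl | h
  · simp
  have h1 := norm_pos_iff.2 h
  have h2 : ip A z z ≤ ip A (‖w‖⁻¹ • w) (‖w‖⁻¹ • w) := hm (by simp [norm_smul, h1.ne'])
  rw [ip_smul_left, ip_smul_right, ← mul_assoc, ← mul_inv, le_inv_mul_iff₀ (by positivity)] at h2
  rw [mem_closedBall_zero_iff]
  exact Real.le_sqrt_of_sq_le ((le_div_iff₀ h0).2 (by rw [sq]; exact h2.trans hw))

/-- Continuous lifts of differentiable curves are differentiable. -/
theorem lift_deriv (he : e ∈ At n M) (hx : x ∈ e.source) (h : ExpInj g e x) {u : ℝ → (E n)}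
    {s : ℝ} (hu : ContinuousAt u s) (he' : e' ∈ At n M) (hs : expm g e x (u s) ∈ e'.source)
    {c' : (E n)} (hc : HasDerivAt (fun s => e' (expm g e x (u s))) c' s) :
    ∃ u', HasDerivAt u u' s ∧ jac g e x (u s) u' e' 1 = c' := by
  obtain ⟨A, hA, hj⟩ := cv_strict he hx h (u s) he' hs
  refine ⟨A.symm c', (hA.to_localInverse.hasFDerivAt.comp_hasDerivAt s hc).congr_of_eventuallyEq
    ((hu.eventually hA.eventually_left_inverse).mono fun r hr => hr.symm), ?_⟩
  rw [hj, A.apply_symm_apply]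

theorem cv_bound (he : e ∈ At n M) (hx : x ∈ e.source) (h : ExpInj g e x)
    (he' : e' ∈ At n M) {u : ℝ → (E n)} {T C : ℝ} {a c' : (E n)} (hT : T ≤ 1) (hC : 0 ≤ C)
    (hu : ContinuousOn u (Ico 0 T))
    (h1 : ∀ s ∈ Ico 0 T, expm g e x (u s) ∈ e'.source ∧ e' (expm g e x (u s)) = a + s • c' ∧
      ip (g.g e' (a + s • c')) c' c' ≤ C) {s : ℝ} (hs : s ∈ Ico 0 T) :
    ip (g.g e (e x)) (u s) (u s) ≤ (ip (g.g e (e x)) (u 0) (u 0) + C) * Real.exp 1 := by
  have hA := g.pos e he _ (e.map_source hx)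
  have hc : Continuous fun w : (E n) => ip (g.g e (e x)) w w := c0_cont _
  have key : ∀ r ∈ Ioo 0 T, ∃ d ≤ 0, HasDerivAt
      (fun s => (ip (g.g e (e x)) (u s) (u s) + C) * Real.exp (-s)) d r := fun r hr => by
    have hn : Ico 0 T ∈ 𝓝 r := mem_of_superset (Ioo_mem_nhds hr.1 hr.2) Ioo_subset_Ico_self
    obtain ⟨k1, k2, k3⟩ := h1 r (mem_of_mem_nhds hn)
    obtain ⟨u', hu', hj⟩ := lift_deriv he hx h (hu.continuousAt hn) he' k1 (c' := c')
      ((by simpa using ((hasDerivAt_id r).smul_const c').const_add a :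
        HasDerivAt (fun s : ℝ => a + s • c') c' r).congr_of_eventuallyEq
          (mem_of_superset hn fun s hs => (h1 s hs).2.1))
    have hG := g.pos e' he' _ (e'.map_source k1)
    have k4 := gauss g he hx (u r) u' he' k1
    obtain ⟨j1, j2, j3⟩ := geo_spec g he hx (u r)
    have k5 := geod_energy isOpen_univ isPreconnected_univ (fun s _ => isGeodesic_iff.1 j1 s)
      (mem_univ 1) (mem_univ 0) he' he k1 (j2.symm ▸ hx)
    rw [j2, j3] at k5
    have k6 := ip_nonneg hG (c' - deriv (e' ∘ geo g e x (u r)) 1)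
    rw [ip_sub_left, ip_sub_right, ip_sub_right, ip_comm hG (deriv _ _) c'] at k6
    rw [hj] at k4
    rw [← k2] at k3
    have k7 : HasDerivAt (fun s => ip (g.g e (e x)) (u s) (u s))
        (ip (g.g e (e x)) u' (u r) + ip (g.g e (e x)) (u r) u') r := by
      simpa [ip] using ((hasDerivAt_const r (g.g e (e x))).clm_apply hu').clm_apply hu'
    refine ⟨_, ?_, (k7.add_const C).fun_mul (hasDerivAt_neg r).exp⟩
    have k8 : ip (g.g e (e x)) u' (u r) + ip (g.g e (e x)) (u r) u' ≤
        ip (g.g e (e x)) (u r) (u r) + C := by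
      rw [ip_comm hA (u r) u']
      simp only [expm] at k3 k4 k6
      linarith
    nlinarith [Real.exp_pos (-r)]
  have h2 : AntitoneOn (fun s => (ip (g.g e (e x)) (u s) (u s) + C) * Real.exp (-s)) (Ico 0 T) := by
    refine antitoneOn_of_deriv_nonpos (convex_Ico 0 T)
      (((hc.comp_continuousOn hu).add continuousOn_const).mul (by fun_prop)) (fun r hr => ?_)
      fun r hr => ?_ <;> rw [interior_Ico] at hr <;> obtain ⟨d, k1, k2⟩ := key r hr
    · exact k2.differentiableAt.differentiableWithinAt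
    · rwa [k2.deriv]
  have h3 := h2 ⟨le_rfl, hs.1.trans_lt hs.2⟩ hs hs.1
  simp only [neg_zero, Real.exp_zero, mul_one, Real.exp_neg] at h3
  rw [← div_eq_mul_inv, div_le_iff₀ (Real.exp_pos s)] at h3
  have h4 := mul_le_mul_of_nonneg_left (Real.exp_le_exp.2 (hs.2.le.trans hT))
    (add_nonneg (ip_nonneg hA (u 0)) hC)
  linarith

theorem expm_cover (he : e ∈ At n M) (hx : x ∈ e.source) (h : ExpInj g e x) :
    IsCoveringMap (expm g e x) := by
  refine covering_of_bounded_lifts (cv_local he hx h) fun y0 => ?_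
  obtain ⟨e', he', hy⟩ : ∃ e' ∈ At n M, y0 ∈ e'.source :=
    ⟨_, chart_mem n y0, mem_chart_source (E n) y0⟩
  obtain ⟨r, hr, hb⟩ := Metric.nhds_basis_closedBall.mem_iff.1
    (e'.open_target.mem_nhds (e'.map_source hy))
  have hm : ∀ a ∈ e'.source ∩ e' ⁻¹' Metric.ball (e' y0) r,
      ∀ b ∈ e'.source ∩ e' ⁻¹' Metric.ball (e' y0) r, ∀ s ∈ Icc (0 : ℝ) 1,
      e' a + s • (e' b - e' a) ∈ Metric.ball (e' y0) r := fun a ha b hb s hs =>
    (convex_ball _ _).add_smul_sub_mem ha.2 hb.2 hs
  have ht : Metric.ball (e' y0) r ⊆ e'.target := Metric.ball_subset_closedBall.trans hb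
  refine ⟨e'.source ∩ e' ⁻¹' Metric.ball (e' y0) r, e'.isOpen_inter_preimage Metric.isOpen_ball,
    ⟨hy, Metric.mem_ball_self hr⟩, fun a b s => e'.symm (e' a + s • (e' b - e' a)),
    fun a ha => ?_, fun a ha b hb => ⟨?_, ?_, fun s hs => ⟨⟨e'.map_target (ht (hm a ha b hb s hs)),
      ?_⟩, ?_⟩⟩, fun v hv b hb' => ?_⟩
  · exact e'.continuousOn_symm.comp (continuousOn_const.add (continuousOn_snd.smul
      ((e'.continuousOn.comp continuousOn_fst fun z hz => hz.1.1).sub continuousOn_const)))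
      fun z hz => ht (hm a ha _ hz.1 _ hz.2)
  · simp [ha.1]
  · simp [hb.1]
  · rw [mem_preimage, e'.right_inv (ht (hm a ha b hb s hs))]
    exact hm a ha b hb s hs
  · simp [ha.1]
  obtain ⟨C, hC⟩ := (isCompact_closedBall (e' y0) r).bddAbove_image
    (((g.good he').ip_smooth (e' b - e' (expm g e x v)) (e' b - e' (expm g e x v))).continuousOn.mono
      hb)
  refine ⟨_, cv_compact (g.pos e he _ (e.map_source hx))
    ((ip (g.g e (e x)) v v + max C 0) * Real.exp 1), fun T hT u hu h0 h1 s hs => ?_⟩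
  rw [← h0]
  refine cv_bound he hx h he' (a := e' (expm g e x v)) (c' := e' b - e' (expm g e x v)) hT.2
    (le_max_right _ _) hu (fun s hs => ?_) hs
  have k := hm _ hv b hb' s ⟨hs.1, hs.2.le.trans hT.2⟩
  rw [h1 s hs]
  exact ⟨e'.map_target (ht k), e'.right_inv (ht k),
    (hC ⟨_, Metric.ball_subset_closedBall k, rfl⟩).trans (le_max_left _ _)⟩

end Vale.Agent.P219.R
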