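import Vale.Agent.P219.Stmt

/-!
Analysis in a global chart: frames, perimeter, varifolds, the modified distance.
-/

open scoped ContDiff Topology ENNReal
open MeasureTheory Set Filter

noncomputable section

namespace Vale.Agent.P219

variable {n k : ℕ} {b : ℝ}

/-- Operators on Euclidean space. -/
abbrev Op (n : ℕ) : Type := E n →L[ℝ] E n

/-- The trace. -/
def tr (A : Op n) : ℝ := ∑ i, inner ℝ (A (ev i)) (ev i)

/-- The Euclidean divergence. -/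
def dive (Z : E n → E n) (x : E n) : ℝ := tr (fderiv ℝ Z x)

/-- A smooth frame `F x e_i`, which is declared orthonormal. -/
structure Frame (n : ℕ) where
  F : E n → Op n
  Fi : E n → Op n
  sF : ContDiff ℝ ∞ F
  sFi : ContDiff ℝ ∞ Fi
  left : ∀ x v, Fi x (F x v) = v
  right : ∀ x v, F x (Fi x v) = v

namespace Frame

variable (Φ : Frame n)

/-- The volume density. -/
def m (x : E n) : ℝ := |(Φ.Fi x).det|

/-- The frame components of the gradient. -/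
def gr (f : E n → ℝ) (x : E n) : E n := ContinuousLinearMap.adjoint (Φ.F x) (gradient f x)

/-- The tangential gradient at a point `z.1` with normal `z.2`. -/
def gt (f : E n → ℝ) (z : E n × E n) : E n := Φ.gr f z.1 - inner ℝ (Φ.gr f z.1) z.2 • z.2

/-- The density times the divergence of the vector field with frame components `y`. -/
def dv (y : E n → E n) (x : E n) : ℝ := dive (fun p => Φ.m p • Φ.F p (y p)) x

/-- An operator whose quadratic form is one half of the Lie derivative of the metric along the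
vector field with frame components `y`. -/
def B (y : E n → E n) (x : E n) : Op n :=
  (Φ.Fi x).comp ((fderiv ℝ (fun p => Φ.F p (y p)) x).comp (Φ.F x) -
    fderiv ℝ Φ.F x (Φ.F x (y x)))

/-- The tangential divergence. -/
def dT (y : E n → E n) (z : E n × E n) : ℝ := tr (Φ.B y z.1) - inner ℝ (Φ.B y z.1 z.2) z.2

/-- The perimeter of a bounded set. -/
def per (A : Set (E n)) : ℝ≥0∞ :=
  ⨆ (y : E n → E n) (_ : ContDiff ℝ 1 y) (_ : ∀ x, ‖y x‖ ≤ 1),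
    ENNReal.ofReal (∫ x in A, Φ.dv y x)

/-- The total variation of a smooth function. -/
def tv (f : E n → ℝ) : ℝ := ∫ x, ‖Φ.gr f x‖ * Φ.m x

/-- The outer normal of the superlevel sets. -/
def nrm (f : E n → ℝ) (x : E n) : E n := -(‖Φ.gr f x‖⁻¹ • Φ.gr f x)

/-- The tangential Jacobian of `T`. -/
def jacT (T : E n → E n) (z : E n × E n) : ℝ :=
  ‖ContinuousLinearMap.adjoint
      ((Φ.Fi z.1).comp ((fderiv ℝ T z.1).inverse.comp (Φ.F (T z.1)))) z.2‖ *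
    (Φ.m (T z.1) * |(fderiv ℝ T z.1).det| / Φ.m z.1)

end Frame

/-- Bounded measurable sets. -/
structure BM (A : Set (E n)) : Prop where
  meas : MeasurableSet A
  bdd : Bornology.IsBounded A

/-- `f` is a `C¹` function supported in the ball of radius `R` that is `ε`-close to the indicator
function of `A`. -/
structure Close (A : Set (E n)) (R ε : ℝ) (f : E n → ℝ) : Prop where
  smooth : ContDiff ℝ 1 f
  supp : ∀ x, R ≤ ‖x‖ → f x = 0
  near : ∫ x, |f x - A.indicator 1 x| ≤ ε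

/-- A finite measure on pairs of a point and a unit normal, with compact support. -/
structure Vf (n : ℕ) where
  V : Measure (E n × E n)
  K : Set (E n)
  fin : IsFiniteMeasure V
  cpt : IsCompact K
  supp : ∀ᵐ z ∂V, z.1 ∈ K ∧ ‖z.2‖ = 1

attribute [instance] Vf.fin

/-- The total mass. -/
def Vf.mass (W : Vf n) : ℝ := W.V.real univ

/-- The measure of the pairs whose point lies in `U`. -/
def Vf.wt (W : Vf n) (U : Set (E n)) : ℝ := W.V.real {z | z.1 ∈ U}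

/-- The Gauss-Green formula. -/
def Frame.GG (Φ : Frame n) (A : Set (E n)) (W : Vf n) : Prop :=
  ∀ y : E n → E n, ContDiff ℝ 1 y → ∫ x in A, Φ.dv y x = ∫ z, inner ℝ (y z.1) z.2 ∂W.V

/-- `W` is a limit of the gradient measures of smooth approximations of the indicator of `A`. -/
def Frame.Lim (Φ : Frame n) (A : Set (E n)) (W : Vf n) : Prop :=
  ∃ R : ℝ, ∀ J : E n × E n → ℝ, Continuous J → ∀ ε > 0, ∃ f, Close A R ε f ∧
    |(∫ x, J (x, Φ.nrm f x) * (‖Φ.gr f x‖ * Φ.m x)) - ∫ z, J z ∂W.V| ≤ ε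

/-- The normal is a limit of continuous functions of the point. -/
def Vf.Sharp (W : Vf n) : Prop :=
  ∀ ε > 0, ∃ y : E n → E n, Continuous y ∧ ∫ z, ‖z.2 - y z.1‖ ∂W.V ≤ ε

/-- The point `x` has the approximate normal `e` and the mass does not decay too fast. -/
def Vf.Pt (W : Vf n) (x e : E n) : Prop :=
  ‖e‖ = 1 ∧ (∀ ε > 0, ∀ᶠ r in 𝓝[>] (0 : ℝ),
    ∫ w in {w : E n × E n | w.1 ∈ Metric.closedBall x r}, ‖w.2 - e‖ ∂W.V ≤
      ε * W.wt (Metric.closedBall x r)) ∧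
  ∃ c > 0, ∀ᶠ r in 𝓝[>] (0 : ℝ), c * r ^ n ≤ W.wt (Metric.closedBall x r)

/-- The Gauss-Green formula for compactly supported fields, up to the sign `a`. -/
def Frame.GGc (Φ : Frame n) (A : Set (E n)) (W : Vf n) (a : ℝ) : Prop :=
  ∀ y : E n → E n, ContDiff ℝ 1 y → HasCompactSupport y →
    ∫ x in A, Φ.dv y x = a * ∫ z, inner ℝ (y z.1) z.2 ∂W.V

/-- The blow-up of `A` at `x` at the scale `r`. -/
def Frame.blow (Φ : Frame n) (A : Set (E n)) (x : E n) (r : ℝ) : Set (E n) :=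
  {w | x + r • Φ.F x w ∈ A}

/-- Test functions supported in the ball of radius `L` and bounded by one. -/
structure Test (L : ℝ) (φ : E n → ℝ) : Prop where
  smooth : ContDiff ℝ 1 φ
  supp : tsupport φ ⊆ Metric.ball 0 L
  bound : ∀ x, |φ x| ≤ 1

/-- Domains in the global chart. -/
structure Dom (Ω : Set (E n)) : Prop where
  isOpen : IsOpen Ω
  bdd : Bornology.IsBounded Ω
  bdry : ∀ x ∈ frontier Ω, ∃ (U : Set (E n)) (φ : E n → ℝ), IsOpen U ∧ x ∈ U ∧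
    ContDiffOn ℝ 1 φ U ∧ fderiv ℝ φ x ≠ 0 ∧ Ω ∩ U = {y ∈ U | φ y < 0}

/-- The chart `ψ` is almost isometric on small scales. -/
def Frame.Bilip (Φ : Frame n) {M : Type*} [MetricSpace M] (ψ : M → E n) : Prop :=
  ∀ x₀ : E n, ∀ ε > 0, ∃ U ∈ 𝓝 x₀, ∀ p q : M, ψ p ∈ U → ψ q ∈ U →
    ‖Φ.Fi x₀ (ψ p - ψ q)‖ ≤ (1 + ε) * dist p q ∧ dist p q ≤ (1 + ε) * ‖Φ.Fi x₀ (ψ p - ψ q)‖

/-- The modified distance `σ = md (dist)` of a Cartan-Hadamard manifold with curvature at most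
`-b²`, in a global chart with an orthonormal frame. -/
structure Geo (n : ℕ) (b : ℝ) extends Frame n where
  σ : E n → E n → ℝ
  b0 : 0 ≤ b
  smooth : ContDiff ℝ ∞ fun p : E n × E n => σ p.1 p.2
  symm : ∀ x y, σ x y = σ y x
  self : ∀ x, σ x x = 0
  pos : ∀ x y, x ≠ y → 0 < σ x y
  bdd : ∀ K : Set (E n), IsCompact K → ∀ s, Bornology.IsBounded {o | ∃ x ∈ K, σ o x ≤ s}
  grad : ∀ o x, ‖toFrame.gr (σ o) x‖ ^ 2 = 2 * σ o x + b ^ 2 * σ o x ^ 2
  hess : ∀ o x ξ, (1 + b ^ 2 * σ o x) * ‖ξ‖ ^ 2 ≤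
    inner ℝ (toFrame.B (toFrame.gr (σ o)) x ξ) ξ
  hess0 : ∀ o ξ, inner ℝ (toFrame.B (toFrame.gr (σ o)) o ξ) ξ = ‖ξ‖ ^ 2
  rauch : ∀ o x ξ, ‖fderiv ℝ (fun y => toFrame.gr (σ y) o) x (F x ξ)‖ ^ 2 ≤
    ‖ξ‖ ^ 2 + b ^ 2 * inner ℝ (toFrame.gr (σ o) x) ξ ^ 2
  bij : ∀ o, Function.Bijective fun y => toFrame.gr (σ y) o
  conn : ∀ o s, IsPreconnected {x | σ o x < s}
  rigid : ∀ o s, 0 < s → (∀ x, σ o x = s → ∀ ξ, inner ℝ (toFrame.gr (σ o) x) ξ = 0 →
      ‖fderiv ℝ (fun y => toFrame.gr (σ y) o) x (F x ξ)‖ = ‖ξ‖) →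
    ∀ x, σ o x < s → ∀ ξ, ‖fderiv ℝ (fun y => toFrame.gr (σ y) o) x (F x ξ)‖ ^ 2 =
      ‖ξ‖ ^ 2 + b ^ 2 * inner ℝ (toFrame.gr (σ o) x) ξ ^ 2

/-- The area of the unit sphere of dimension `k`. -/
def sph (k : ℕ) : ℝ := (k + 1) * omega (k + 1)

/-- The conformal factor of the stereographic projection. -/
def lam (s t : ℝ) : ℝ := 2 * t / (t ^ 2 + 2 * s)

/-- The kernel of the integrated monotonicity formula. -/
def ker (k : ℕ) (ρ s : ℝ) : ℝ :=
  ρ ^ k * s ^ (-((k - 1 : ℝ) / 2)) * (ρ ^ 2 + s) ^ (-((k : ℝ) / 2))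

/-- The constant of the conformal Laplacian. -/
def ck (k : ℕ) : ℝ := k * (k - 2) / 4

/-- The critical exponent. -/
def qq (k : ℕ) : ℝ := 2 * k / (k - 2)

/-- The exponent of the bubble. -/
def be (k : ℕ) : ℝ := (k - 2) / 2

/-- The correction factor in negative curvature. -/
def aa (b τ : ℝ) : ℝ := 1 + b ^ 2 * τ ^ 2 / 4

/-- The orthogonal projection along the unit vector `ν`. -/
def prj (ν ξ : E n) : E n := ξ - inner ℝ ξ ν • ν

/-- The volume of the model ball with boundary area `P`. -/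
def Wm (k : ℕ) (b P : ℝ) : ℝ :=
  sph k * ∫ u in (0 : ℝ)..(P / sph k) ^ (1 / k : ℝ), u ^ k / Real.sqrt (1 + b ^ 2 * u ^ 2)

namespace Geo

variable (Γ : Geo n b)

/-- The logarithm map, up to sign and a radial factor. -/
def Xi (o y : E n) : E n := Γ.gr (Γ.σ y) o

/-- The tangential trace of the Hessian of `σ o`. -/
def Hs (o : E n) (z : E n × E n) : ℝ := Γ.dT (Γ.gr (Γ.σ o)) z

/-- The normal derivative of `σ o`. -/
def pn (o : E n) (z : E n × E n) : ℝ := inner ℝ (Γ.gr (Γ.σ o) z.1) z.2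

/-- The denominator. -/
def D (o : E n) (τ : ℝ) (x : E n) : ℝ := τ ^ 2 + 2 * aa b τ * Γ.σ o x

/-- The conformal factor. -/
def la (o : E n) (τ : ℝ) (x : E n) : ℝ := 2 * τ / Γ.D o τ x

/-- The last component of the map to the sphere. -/
def ps (o : E n) (τ : ℝ) (x : E n) : ℝ := (τ ^ 2 - 2 * (2 - aa b τ) * Γ.σ o x) / Γ.D o τ x

/-- The normalized normal derivative. -/
def P (o : E n) (τ : ℝ) (z : E n × E n) : ℝ := 2 * aa b τ * Γ.pn o z / Γ.D o τ z.1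

/-- The Rauch defect function. -/
def Wd (o : E n) (z : E n × E n) : ℝ :=
  ∑ j, (‖fderiv ℝ (Γ.Xi o) z.1 (Γ.F z.1 (prj z.2 (ev j)))‖ ^ 2 -
    b ^ 2 * inner ℝ (Γ.gr (Γ.σ o) z.1) (prj z.2 (ev j)) ^ 2)

end Geo

/-- The gradient of `u / U` times `U`, where `U` is the bubble. -/
def Geo.er (Γ : Geo (k + 1) b) (o : E (k + 1)) (τ : ℝ) (u : E (k + 1) → ℝ)
    (z : E (k + 1) × E (k + 1)) : E (k + 1) :=
  Γ.gt u z + (u z.1 * (2 * be k * aa b τ / Γ.D o τ z.1)) • Γ.gt (Γ.σ o) z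

/-- The quotient by the bubble. -/
def Geo.vv (Γ : Geo (k + 1) b) (o : E (k + 1)) (τ : ℝ) (u : E (k + 1) → ℝ) (x : E (k + 1)) : ℝ :=
  u x / Γ.la o τ x ^ be k

/-- The energy. -/
def Frame.En (Φ : Frame n) (W : Vf n) (C : ℝ) (u : E n → ℝ) : ℝ :=
  ∫ z, ‖Φ.gt u z‖ ^ 2 ∂W.V + C * ∫ z, u z.1 ^ 2 ∂W.V

/-- The first variation formula with mean curvature `γ` bounded by `h`. -/
structure Frame.FV (Φ : Frame (k + 1)) (W : Vf (k + 1)) (h : ℝ) (γ : E (k + 1) → ℝ) : Prop where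
  cont : Continuous γ
  bound : ∀ x, |γ x| ≤ h
  fv : ∀ y : E (k + 1) → E (k + 1), ContDiff ℝ 1 y →
    ∫ z, Φ.dT y z ∂W.V = k * ∫ z, γ z.1 * inner ℝ (y z.1) z.2 ∂W.V

/-- The density is at least one almost everywhere. -/
def Geo.Den (Γ : Geo (k + 1) b) (W : Vf (k + 1)) : Prop :=
  ∀ᵐ z ∂W.V, ∀ η > 0, ∃ᶠ s in 𝓝[>] (0 : ℝ), sph k - η ≤ ∫ w, lam (Γ.σ z.1 w.1) s ^ k ∂W.V

/-- The Sobolev inequality with constant `Y` for nonnegative functions. -/
def Frame.Sob (Φ : Frame (k + 1)) (W : Vf (k + 1)) (C Y : ℝ) : Prop :=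
  ∀ u : E (k + 1) → ℝ, ContDiff ℝ 1 u → (∀ x, 0 ≤ u x) →
    Y * (∫ z, u z.1 ^ qq k ∂W.V) ^ (2 / qq k) ≤ Φ.En W C u

/-- The balancing condition. -/
def Geo.Bal (Γ : Geo n b) (W : Vf n) (ρ : E n → ℝ) (o : E n) (τ : ℝ) : Prop :=
  ∫ z, (ρ z.1 * Γ.la o τ z.1) • Γ.Xi o z.1 ∂W.V = 0 ∧ ∫ z, ρ z.1 * Γ.ps o τ z.1 ∂W.V = 0

/-- The conclusion in the equality case. -/
def Geo.Round (Γ : Geo n b) (W : Vf n) (o : E n) (s : ℝ) : Prop :=
  ∀ᵐ z ∂W.V, Γ.σ o z.1 = s ∧ 0 < Γ.pn o z ∧ ∀ ξ, inner ℝ (Γ.gr (Γ.σ o) z.1) ξ = 0 →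
    ‖fderiv ℝ (Γ.Xi o) z.1 (Γ.F z.1 ξ)‖ = ‖ξ‖

end Vale.Agent.P219
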