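import Vale.Agent.P219.Exp
import Vale.Agent.P234.Flow

/-!
Smoothness of the geodesic flow.
-/

open scoped ContDiff Topology Manifold Bundle
open Set Filter

set_option maxSynthPendingDepth 3

noncomputable section

namespace Vale.Agent.P219.R

variable {n : ℕ} {b : ℝ}

theorem exps_flow {F : Type} [NormedAddCommGroup F] [NormedSpace ℝ F] [FiniteDimensional ℝ F]
    {W : F → F} {O : Set F} (hO : IsOpen O) (hW : ContDiffOn ℝ ∞ W O) {z0 : F} (h0 : z0 ∈ O) :
    ∃ ε > 0, ∃ N : Set F, IsOpen N ∧ z0 ∈ N ∧ ∃ φ : F → ℝ → F,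
      ∀ z ∈ N, φ z 0 = z ∧ ∀ τ ∈ Ioo (-ε) ε,
        φ z τ ∈ O ∧ HasDerivAt (φ z) (W (φ z τ)) τ ∧ ContDiffAt ℝ ∞ (fun z => φ z τ) z := by
  obtain ⟨r, hr, hrO⟩ := Metric.nhds_basis_closedBall.mem_iff.1 (hO.mem_nhds h0)
  let β : ContDiffBump z0 := ⟨r / 2, r, half_pos hr, half_lt_self hr⟩
  have hV : ContDiff ℝ ∞ fun z => β z • W z := by
    refine contDiff_iff_contDiffAt.2 fun z => ?_
    by_cases hz : z ∈ O
    · exact β.contDiff.contDiffAt.smul (hW.contDiffAt (hO.mem_nhds hz))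
    · have h1 : z ∈ (Metric.closedBall z0 r)ᶜ := fun h => hz (hrO h)
      refine (contDiffAt_const (c := (0 : F))).congr_of_eventuallyEq ?_
      filter_upwards [Metric.isClosed_closedBall.isOpen_compl.mem_nhds h1] with p hp
      have hp' : ¬ dist p z0 ≤ r := hp
      rw [β.zero_of_le_dist (not_le.1 hp').le, zero_smul]
  obtain ⟨φ, δ, hδ, hφ, h1, h2⟩ := P234.exists_smooth_flow hV z0
  have hU : IsOpen (Metric.ball (0 : ℝ) δ ×ˢ Metric.ball z0 δ) :=
    Metric.isOpen_ball.prod Metric.isOpen_ball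
  have h3 : ContinuousAt φ (0, z0) :=
    (hφ.contDiffAt (hU.mem_nhds ⟨Metric.mem_ball_self hδ, Metric.mem_ball_self hδ⟩)).continuousAt
  have h4 : φ ⁻¹' Metric.ball z0 (r / 2) ∈ 𝓝 ((0 : ℝ), z0) :=
    h3.preimage_mem_nhds (by
      rw [h1 z0 (Metric.mem_ball_self hδ)]
      exact Metric.ball_mem_nhds _ (half_pos hr))
  obtain ⟨ρ, hρ, h5⟩ := Metric.mem_nhds_iff.1 h4
  refine ⟨min δ ρ, lt_min hδ hρ, Metric.ball z0 (min δ ρ), Metric.isOpen_ball,
    Metric.mem_ball_self (lt_min hδ hρ), fun z τ => φ (τ, z), fun z hz => ?_⟩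
  have hz1 : z ∈ Metric.ball z0 δ := Metric.ball_subset_ball (min_le_left _ _) hz
  have hz2 : z ∈ Metric.ball z0 ρ := Metric.ball_subset_ball (min_le_right _ _) hz
  refine ⟨h1 z hz1, fun τ hτ => ?_⟩
  have hτ0 : τ ∈ Metric.ball (0 : ℝ) (min δ ρ) := by
    rw [mem_ball_zero_iff, Real.norm_eq_abs, abs_lt]
    exact hτ
  have hτ1 : τ ∈ Metric.ball (0 : ℝ) δ := Metric.ball_subset_ball (min_le_left _ _) hτ0
  have hτ2 : τ ∈ Metric.ball (0 : ℝ) ρ := Metric.ball_subset_ball (min_le_right _ _) hτ0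
  have h6 : φ (τ, z) ∈ Metric.ball z0 (r / 2) := h5 (by
    rw [← ball_prod_same]
    exact ⟨hτ2, hz2⟩)
  refine ⟨hrO (Metric.ball_subset_closedBall (Metric.ball_subset_ball (half_le_self hr.le) h6)),
    ?_, ?_⟩
  · have h7 := h2 z hz1 τ hτ1
    rwa [β.one_of_mem_closedBall (Metric.ball_subset_closedBall h6), one_smul] at h7
  · exact (hφ.contDiffAt (hU.mem_nhds ⟨hτ1, hz1⟩)).comp z
      (contDiffAt_const.prodMk contDiffAt_id)

variable {M : Type*} [TopologicalSpace M] [ChartedSpace (E n) M] [T2Space M]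
  [IsManifold 𝓘(ℝ, E n) ∞ M] {e e' : OpenPartialHomeomorph M (E n)}

omit [T2Space M] in
theorem exps_chart {g : RMetric n M} {γ : E n × E n → ℝ → M} {q0 : E n × E n}
    (hγ : ∀ᶠ q in 𝓝 q0, IsGeodesic g (γ q)) {s : ℝ}
    (hc : ContinuousAt (fun q => γ q s) q0) (he : e ∈ At n M) (he' : e' ∈ At n M)
    (hs : γ q0 s ∈ e.source) (hs' : γ q0 s ∈ e'.source)
    (hL : ContDiffAt ℝ ∞ (fun q => st e (γ q) s) q0) :
    ContDiffAt ℝ ∞ (fun q => st e' (γ q) s) q0 := by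
  have hT : ContDiffAt ℝ ∞ (e' ∘ e.symm) (st e (γ q0) s).1 := tr_smooth he he' hs hs'
  have h1 : ContDiffAt ℝ ∞ (fun z : E n × E n => (e' ∘ e.symm) z.1) (st e (γ q0) s) :=
    hT.comp _ contDiffAt_fst
  have h2 : ContDiffAt ℝ ∞ (fun z : E n × E n => fderiv ℝ (e' ∘ e.symm) z.1) (st e (γ q0) s) :=
    (hT.fderiv_right (m := ∞) (by simp)).comp _ contDiffAt_fst
  have h3 := h1.prodMk (h2.clm_apply contDiffAt_snd)
  refine (h3.comp q0 hL).congr_of_eventuallyEq ?_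
  filter_upwards [hγ, hc.preimage_mem_nhds (e.open_source.mem_nhds hs),
    hc.preimage_mem_nhds (e'.open_source.mem_nhds hs')] with v c0 c1 c2
  have c3 := (st_tr he he' c0.1.continuousAt c1 c2 (c0.2 e he s c1).1).deriv
  simp only [st, c3, tr, Function.comp_apply]
  rw [e.left_inv c1]

theorem geo_smooth (g : RMetric n M) [GC g] (he : e ∈ At n M) {y v : E n} (hy : y ∈ e.target)
    (s : ℝ) : ContinuousAt (fun q : E n × E n => geo g e (e.symm q.1) q.2 s) (y, v) ∧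
      ∀ e' ∈ At n M, geo g e (e.symm y) v s ∈ e'.source →
        ContDiffAt ℝ ∞ (fun q : E n × E n => st e' (geo g e (e.symm q.1) q.2) s) (y, v) := by
  obtain ⟨γ, hγd⟩ : ∃ γ : E n × E n → ℝ → M, γ = fun q => geo g e (e.symm q.1) q.2 := ⟨_, rfl⟩
  have hT : ∀ᶠ q : E n × E n in 𝓝 (y, v), q.1 ∈ e.target :=
    continuousAt_fst.preimage_mem_nhds (e.open_target.mem_nhds hy)
  have hsp : ∀ᶠ q : E n × E n in 𝓝 (y, v), IsGeodesic g (γ q) ∧ γ q 0 = e.symm q.1 ∧
      deriv (e ∘ γ q) 0 = q.2 := by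
    filter_upwards [hT] with q hq
    rw [hγd]
    exact geo_spec g he (e.map_target hq) q.2
  have hγ : ∀ᶠ q : E n × E n in 𝓝 (y, v), IsGeodesic g (γ q) := hsp.mono fun q hq => hq.1
  let P : ℝ → Prop := fun s => ContinuousAt (fun q => γ q s) (y, v) ∧
    ∀ e' ∈ At n M, γ (y, v) s ∈ e'.source → ContDiffAt ℝ ∞ (fun q => st e' (γ q) s) (y, v)
  have h0 : P 0 := by
    have a1 : ContinuousAt (fun q => γ q 0) (y, v) := by
      have a0 : ContinuousAt (fun q : E n × E n => e.symm q.1) (y, v) :=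
        (e.continuousAt_symm hy).comp_of_eq (f := fun q : E n × E n => q.1) continuousAt_fst rfl
      exact a0.congr (hsp.mono fun q hq => hq.2.1.symm)
    refine ⟨a1, fun e' he' hs => exps_chart hγ a1 he he'
      (by rw [hsp.self_of_nhds.2.1]; exact e.map_target hy) hs ?_⟩
    refine contDiffAt_id.congr_of_eventuallyEq ?_
    filter_upwards [hT, hsp] with q hq hq'
    rw [st, hq'.2.1, hq'.2.2, e.right_inv hq]
    rfl
  have hloc : ∀ r : ℝ, ∃ V ∈ 𝓝 r, ∀ s1 ∈ V, ∀ s2 ∈ V, P s1 → P s2 := by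
    intro r
    set c := chartAt (E n) (γ (y, v) r)
    have hc : c ∈ At n M := chart_mem n _
    have hr : γ (y, v) r ∈ c.source := mem_chart_source (E n) _
    obtain ⟨ε, hε, N, hN, hzN, φ, hφ⟩ := exps_flow (c.open_target.prod isOpen_univ)
      (g.good hc).Wf_smooth (z0 := st c (γ (y, v)) r) ⟨c.map_source hr, trivial⟩
    have a1 := st_ode (t := r) (Eventually.of_forall (isGeodesic_iff.1 hγ.self_of_nhds)) hc hr
    have a2 := a1.self_of_nhds.2.continuousAt.preimage_mem_nhds (hN.mem_nhds hzN)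
    refine ⟨_, inter_mem (inter_mem a1 a2) (Metric.ball_mem_nhds r (half_pos hε)), ?_⟩
    rintro s1 ⟨⟨⟨b1, -⟩, b2⟩, b3⟩ s2 ⟨-, b4⟩ ⟨p1, p2⟩
    have hL0 := p2 c hc b1
    have hτ : s2 - s1 ∈ Ioo (-ε) ε := by
      rw [Metric.mem_ball, Real.dist_eq, abs_lt] at b3 b4
      constructor <;> linarith [b3.1, b3.2, b4.1, b4.2]
    have hev : ∀ᶠ q in 𝓝 (y, v), γ q s2 ∈ c.source ∧
        st c (γ q) s2 = φ (st c (γ q) s1) (s2 - s1) := by
      filter_upwards [hγ, p1.preimage_mem_nhds (c.open_source.mem_nhds b1),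
        hL0.continuousAt.preimage_mem_nhds (hN.mem_nhds b2)] with q c0 c1 c2
      have := exp_key hc c0 c1 (hφ _ c2).1
        (fun τ hτ => ⟨((hφ _ c2).2 τ hτ).1, ((hφ _ c2).2 τ hτ).2.1⟩) hτ
      rwa [add_sub_cancel] at this
    have hL2 : ContDiffAt ℝ ∞ (fun q => st c (γ q) s2) (y, v) :=
      (ContDiffAt.comp (f := fun q => st c (γ q) s1) (y, v)
        ((hφ _ b2).2 _ hτ).2.2 hL0).congr_of_eventuallyEq (hev.mono fun q hq => hq.2)
    have hcont : ContinuousAt (fun q => γ q s2) (y, v) := by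
      have d1 : ContinuousAt (fun q => c.symm (st c (γ q) s2).1) (y, v) :=
        (c.continuousAt_symm (c.map_source hev.self_of_nhds.1)).comp_of_eq
          (f := fun q => (st c (γ q) s2).1) hL2.continuousAt.fst rfl
      exact d1.congr (hev.mono fun q hq => c.left_inv hq.1)
    exact ⟨hcont, fun e' he' hs => exps_chart hγ hcont hc he' hev.self_of_nhds.1 hs hL2⟩
  have hP : P s := by
    refine PreconnectedSpace.induction₂' (fun a b : ℝ => P a → P b) (fun r => ?_)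
      ⟨fun a b c h1 h2 h3 => h2 (h1 h3)⟩ 0 s h0
    obtain ⟨V, hV, h⟩ := hloc r
    filter_upwards [hV] with q hq
    exact ⟨h r (mem_of_mem_nhds hV) q hq, h q hq r (mem_of_mem_nhds hV)⟩
  subst hγd
  exact hP


end Vale.Agent.P219.R
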