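import Vale.Agent.P219.MkGeo
import Vale.Agent.P219.Iso
import Vale.Agent.P219.RigB
import Vale.Agent.P219.RigM
import Vale.Agent.P219.Vol
import Vale.Agent.P219.Area

/-!
The generalized Cartan-Hadamard isoperimetric inequality.
-/

open scoped ContDiff Topology Manifold Bundle ENNReal
open MeasureTheory Set Filter

set_option maxSynthPendingDepth 3

noncomputable section

namespace Vale.Agent.P219

variable {n k : ℕ} {M : Type*} [MetricSpace M]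

theorem fin_dom [ChartedSpace (E n) M] [IsManifold 𝓘(ℝ, E n) ∞ M] {ψ : M ≃ₜ E n}
    (hψ : ψ.toOpenPartialHomeomorph ∈ R.At n M) {Ω : Set M} (hΩ : IsDomain n Ω)
    (hb : Bornology.IsBounded (ψ '' Ω)) : Dom (ψ '' Ω) := by
  have h1 : ContMDiff 𝓘(ℝ, E n) 𝓘(ℝ, E n) ∞ ψ :=
    contMDiffOn_univ.1 (contMDiffOn_of_mem_maximalAtlas hψ)
  have h2 : ContMDiff 𝓘(ℝ, E n) 𝓘(ℝ, E n) ∞ ψ.symm :=
    contMDiffOn_univ.1 (contMDiffOn_symm_of_mem_maximalAtlas hψ)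
  refine ⟨ψ.isOpenMap _ hΩ.1, hb, fun x hx => ?_⟩
  rw [← ψ.image_frontier] at hx
  obtain ⟨p, hp, rfl⟩ := hx
  obtain ⟨U, φ, hU, hpU, h3, h4, h5⟩ := hΩ.2.2 p hp
  have h6 : ContDiffOn ℝ ∞ (φ ∘ ψ.symm) (ψ '' U) := by
    rw [← contMDiffOn_iff_contDiffOn]
    refine h3.comp h2.contMDiffOn ?_
    rintro _ ⟨y, hy, rfl⟩
    simpa using hy
  refine ⟨ψ '' U, φ ∘ ψ.symm, ψ.isOpenMap _ hU, mem_image_of_mem _ hpU, h6.of_le (by simp),
    fun h7 => h4 ?_, ?_⟩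
  · have h8 : HasMFDerivAt 𝓘(ℝ, E n) 𝓘(ℝ, ℝ) (φ ∘ ψ.symm) (ψ p) (0 : E n →L[ℝ] ℝ) := by
      rw [← h7]
      exact ((h6.contDiffAt ((ψ.isOpenMap _ hU).mem_nhds (mem_image_of_mem _ hpU))).differentiableAt
        (by simp)).hasFDerivAt.hasMFDerivAt
    have h9 := (h8.comp p (h1.mdifferentiable (by simp) p).hasMFDerivAt).mfderiv
    have h10 : (φ ∘ ψ.symm) ∘ ψ = φ := by
      funext y
      simp
    rw [h10] at h9
    rw [h9]
    rfl
  · rw [← image_inter ψ.injective, h5]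
    ext y
    constructor
    · rintro ⟨z, hz, rfl⟩
      exact ⟨mem_image_of_mem _ hz.1, by simpa using hz.2⟩
    · rintro ⟨⟨z, hz, rfl⟩, hy⟩
      exact ⟨z, ⟨hz, by simpa using hy⟩, rfl⟩

theorem main (hk : 3 ≤ k) {κ : ℝ} (hκ : κ ≤ 0) [ChartedSpace (E (k + 1)) M]
    [IsManifold 𝓘(ℝ, E (k + 1)) ∞ M]
    [Bundle.RiemannianBundle fun x : M => TangentSpace 𝓘(ℝ, E (k + 1)) x]
    [IsContMDiffRiemannianBundle 𝓘(ℝ, E (k + 1)) ∞ (E (k + 1))
      fun x : M => TangentSpace 𝓘(ℝ, E (k + 1)) x]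
    [IsRiemannianManifold 𝓘(ℝ, E (k + 1)) M] [CompleteSpace M] [SimplyConnectedSpace M]
    [MeasurableSpace M] [BorelSpace M] (hsec : SecLe (k + 1) M κ) {Ω : Set M}
    (hΩ : IsDomain (k + 1) Ω) :
    μHE[k + 1] Ω ≠ ⊤ ∧
      ENNReal.ofReal (profile (k + 1) κ (μHE[k + 1] Ω).toReal) ≤ μHE[k] (frontier Ω) ∧
      (Ω.Nonempty → μHE[k] (frontier Ω) = ENNReal.ofReal (profile (k + 1) κ (μHE[k + 1] Ω).toReal) →
        IsModelBall (k + 1) κ Ω) := by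
  have hk1 : 1 ≤ k := by omega
  obtain ⟨Γ, ψ, h1, h2, h3, h4⟩ := R.exists_geo hκ hsec
  have hD := fin_dom h2 hΩ (h4 Ω hΩ.2.1)
  have hA : BM (ψ '' Ω) := ⟨hD.isOpen.measurableSet, hD.bdd⟩
  have hint := hA.integrableOn Γ.m_smooth.continuous
  have hV0 : 0 ≤ ∫ x in ψ '' Ω, Γ.m x := integral_nonneg fun x => (Γ.m_pos x).le
  have hV : μHE[k + 1] Ω ≤ ENNReal.ofReal (∫ x in ψ '' Ω, Γ.m x) := by
    have h5 := Γ.vol_le ψ h1 hA.meas
    rwa [preimage_image_eq _ ψ.injective, ← ofReal_integral_eq_lintegral_ofReal hint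
      (Eventually.of_forall fun x => (Γ.m_pos x).le)] at h5
  have hV1 := ENNReal.toReal_le_of_le_ofReal hV0 hV
  have hP : Γ.per (ψ '' Ω) ≤ μHE[k] (frontier Ω) := by
    have h5 := Γ.per_le_area ψ h1 hD
    rwa [← ψ.image_frontier, preimage_image_eq _ ψ.injective] at h5
  refine ⟨ne_top_of_le_ne_top ENNReal.ofReal_ne_top hV, ?_, fun hne he => ?_⟩
  · by_cases hfin : Γ.per (ψ '' Ω) = ⊤
    · rw [hfin, top_le_iff] at hP
      rw [hP]
      exact le_top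
    refine le_trans ?_ hP
    rw [← ENNReal.ofReal_toReal hfin]
    exact ENNReal.ofReal_le_ofReal (profile_le hk1 hκ ENNReal.toReal_nonneg ENNReal.toReal_nonneg
      (hV1.trans (Γ.iso hk hA hfin)))
  rw [he] at hP
  have hfin := ne_top_of_le_ne_top ENNReal.ofReal_ne_top hP
  have h0 : volume (ψ '' Ω) ≠ 0 := (hD.isOpen.measure_pos _ (hne.image ψ)).ne'
  have hP0 : Γ.per (ψ '' Ω) ≠ 0 := fun h => h0 (Γ.vol_zero hA h)
  have h5 : (Γ.per (ψ '' Ω)).toReal ≤ profile (k + 1) κ (μHE[k + 1] Ω).toReal := by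
    rw [← ENNReal.ofReal_toReal hfin] at hP
    rcases ENNReal.ofReal_le_ofReal_iff'.1 hP with h | h
    · exact h
    · exact absurd h (ENNReal.toReal_pos hP0 hfin).not_ge
  obtain ⟨W, o, s, h6, h7, h8⟩ := Γ.iso_eq hk hA hfin h0
    ((le_profile hk1 hκ ENNReal.toReal_nonneg ENNReal.toReal_nonneg h5).trans hV1)
  obtain ⟨h9, h10⟩ := Γ.rig_ball hD (hne.image ψ) h6 h7 h8
  obtain ⟨ρ, T, h11, h12, h13, h14, h15⟩ := Γ.rig_map h7 h10
  rw [Real.sq_sqrt (by linarith)] at h12 h15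
  have h16 : ContMDiff 𝓘(ℝ, E (k + 1)) 𝓘(ℝ, E (k + 1)) ∞ ψ :=
    contMDiffOn_univ.1 (contMDiffOn_of_mem_maximalAtlas h2)
  refine ⟨ρ, T ∘ ψ, h11, by linarith, (h13.contMDiff.comp h16).contMDiffOn, ?_, fun x hx v => ?_⟩
  · rw [← h9] at h14
    exact h14.comp (ψ.injective.injOn.bijOn_image)
  · have h17 : dmap (k + 1) (T ∘ ψ) x v = fderiv ℝ T (ψ x) (dmap (k + 1) ψ x v) := by
      have h18 := ((h13.differentiable (by simp) (ψ x)).hasFDerivAt.hasMFDerivAt.comp x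
        (h16.mdifferentiable (by simp) x).hasMFDerivAt).mfderiv
      rw [dmap, h18]
      rfl
    have h19 : Γ.σ o (ψ x) < s := by
      have : ψ x ∈ ψ '' Ω := mem_image_of_mem _ hx
      rwa [h9] at this
    rw [h3, h15 _ h19, h17]
    congr 1
    simp only [Function.comp_apply]
    ring

end Vale.Agent.P219
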