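import Vale.Agent.P219.Exp

/-!
The Gauss lemma and the expansion property of the exponential map.
-/

open scoped ContDiff Topology Manifold
open Set Filter

set_option maxSynthPendingDepth 3

noncomputable section

namespace Vale.Agent.P219.R

variable {n : ℕ}

theorem gauss_real {F F1 F2 : ℝ → ℝ} (h1 : ∀ s, HasDerivAt F (F1 s) s)
    (h2 : ∀ s, HasDerivAt F1 (F2 s) s) (hF : ∀ s, 0 ≤ F s) (hF2 : ∀ s, 0 ≤ F2 s)
    (hq : ∀ s, F1 s ^ 2 ≤ 2 * F s * F2 s) (h0 : F 0 = 0) : F2 0 ≤ 2 * F 1 := by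
  have hconv : ∀ δ > 0, ∀ s ∈ Icc (0 : ℝ) 1,
      √(F s + δ) ≤ (1 - s) * √δ + s * √(F 1 + δ) := by
    intro δ hδ s hs
    have hp : ∀ r, 0 < F r + δ := fun r => by linarith [hF r]
    have d1 : ∀ r, HasDerivAt (fun r => √(F r + δ)) (F1 r / (2 * √(F r + δ))) r := fun r =>
      ((h1 r).add_const δ).sqrt (hp r).ne'
    have d2 : deriv (fun r => √(F r + δ)) = fun r => F1 r / (2 * √(F r + δ)) :=
      funext fun r => (d1 r).deriv
    have d3 : ∀ r, HasDerivAt (fun r => F1 r / (2 * √(F r + δ)))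
        ((F2 r * (2 * √(F r + δ)) - F1 r * (2 * (F1 r / (2 * √(F r + δ))))) /
          (2 * √(F r + δ)) ^ 2) r := fun r =>
      (h2 r).div ((d1 r).const_mul 2) (by have := Real.sqrt_pos.2 (hp r); positivity)
    have hc : ConvexOn ℝ univ (fun r => √(F r + δ)) := by
      refine convexOn_univ_of_deriv2_nonneg (fun r => (d1 r).differentiableAt)
        (by rw [d2]; exact fun r => (d3 r).differentiableAt) fun r => ?_
      have : deriv^[2] (fun r => √(F r + δ)) r = deriv (deriv fun r => √(F r + δ)) r := rfl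
      rw [this, d2, (d3 r).deriv]
      have e1 := Real.sqrt_pos.2 (hp r)
      have e2 := Real.mul_self_sqrt (hp r).le
      refine div_nonneg ?_ (by positivity)
      have e3 : F2 r * (2 * √(F r + δ)) - F1 r * (2 * (F1 r / (2 * √(F r + δ)))) =
          (2 * (√(F r + δ) * √(F r + δ)) * F2 r - F1 r ^ 2) / √(F r + δ) := by
        field_simp
      rw [e3, e2]
      refine div_nonneg ?_ e1.le
      nlinarith [hq r, mul_nonneg hδ.le (hF2 r)]
    have := hc.2 (mem_univ 0) (mem_univ 1) (sub_nonneg.2 hs.2) hs.1 (by ring)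
    simpa [h0] using this
  have hle : ∀ s ∈ Icc (0 : ℝ) 1, F s ≤ s ^ 2 * F 1 := by
    intro s hs
    have a1 : √(F s + 0) ≤ (1 - s) * √0 + s * √(F 1 + 0) := by
      refine le_of_tendsto_of_tendsto (b := 𝓝[>] (0 : ℝ)) (f := fun δ => √(F s + δ))
        (g := fun δ => (1 - s) * √δ + s * √(F 1 + δ)) ?_ ?_
        (eventually_of_mem self_mem_nhdsWithin fun δ hδ => hconv δ hδ s hs)
      · exact (Continuous.tendsto (by fun_prop) 0).mono_left nhdsWithin_le_nhds
      · exact (Continuous.tendsto (by fun_prop) 0).mono_left nhdsWithin_le_nhds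
    simp only [add_zero, Real.sqrt_zero, mul_zero, zero_add] at a1
    have a2 := mul_self_le_mul_self (Real.sqrt_nonneg _) a1
    rw [Real.mul_self_sqrt (hF s)] at a2
    nlinarith [Real.mul_self_sqrt (hF 1)]
  by_contra hlt
  push Not at hlt
  have hF1 : F1 0 = 0 := by
    have := hq 0
    rw [h0] at this
    nlinarith [sq_nonneg (F1 0)]
  set c := (F2 0 / 2 + F 1) / 2 with hc
  have d1 : ∀ r, HasDerivAt (fun r => F r - c * r ^ 2) (F1 r - c * (2 * r)) r := fun r => by
    simpa using (h1 r).fun_sub ((hasDerivAt_pow 2 r).const_mul c)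
  have d2 : deriv (fun r => F r - c * r ^ 2) = fun r => F1 r - c * (2 * r) :=
    funext fun r => (d1 r).deriv
  have d3 : HasDerivAt (fun r => F1 r - c * (2 * r)) (F2 0 - c * 2) 0 := by
    simpa using (h2 0).fun_sub (((hasDerivAt_id (0 : ℝ)).const_mul 2).const_mul c)
  have hmin : IsLocalMin (fun r => F r - c * r ^ 2) 0 :=
    isLocalMin_of_deriv_deriv_pos (by rw [d2, d3.deriv]; linarith) (by rw [d2]; simp [hF1])
      (d1 0).continuousAt
  obtain ⟨s, hs1, hs2⟩ := ((hmin.filter_mono (nhdsWithin_le_nhds (s := Ioi 0))).and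
    (Ioo_mem_nhdsGT (zero_lt_one' ℝ))).exists
  have a3 := hle s ⟨hs2.1.le, hs2.2.le⟩
  simp only [h0] at hs1
  have a4 : 0 < s ^ 2 := pow_pos hs2.1 2
  nlinarith

variable {M : Type*} [TopologicalSpace M] [ChartedSpace (E n) M] [T2Space M]
  [IsManifold (modelWithCornersSelf ℝ (E n)) ∞ M] {g : RMetric n M} [GC g]
  {e e' : OpenPartialHomeomorph M (E n)} {x : M}

theorem gauss_cov (g : RMetric n M) [GC g] (he : e ∈ At n M) (hx : x ∈ e.source) (v w : (E n)) {s : ℝ}
    (he' : e' ∈ At n M) (hs : geo g e x v s ∈ e'.source) :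
    ip (g.g e' (e' (geo g e x v s))) (cov (g.g e') (e' ∘ geo g e x v) (jac g e x v w e') s)
      (deriv (e' ∘ geo g e x v) s) = ip (g.g e (e x)) w v := by
  obtain ⟨p1, p2⟩ := geo_deriv g he hx v s
  obtain ⟨L, hL⟩ := p2 e' he' hs
  have hy := e'.map_source hs
  have hl : HasDerivAt (fun r : ℝ => v + r • w) w 0 := by
    simpa using ((hasDerivAt_id (0 : ℝ)).smul_const w).const_add v
  have hv0 : v + (0 : ℝ) • w = v := by simp
  have h1 : HasDerivAt (fun r : ℝ => st e' (geo g e x (v + r • w)) s) (L w) 0 :=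
    HasFDerivAt.comp_hasDerivAt_of_eq (l := fun u => st e' (geo g e x u) s) 0 hL.hasFDerivAt hl
      hv0.symm
  have h2 : HasDerivAt (fun r : ℝ => (st e' (geo g e x (v + r • w)) s).1) (L w).1 0 :=
    (ContinuousLinearMap.fst ℝ (E n) (E n)).hasFDerivAt.comp_hasDerivAt 0 h1
  have h3 : HasDerivAt (fun r : ℝ => (st e' (geo g e x (v + r • w)) s).2) (L w).2 0 :=
    (ContinuousLinearMap.snd ℝ (E n) (E n)).hasFDerivAt.comp_hasDerivAt 0 h1
  have h4 := (g.good he').hasDerivAt_ip (by simp only [hv0]; exact hy) h2 h3 h3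
  have h5 := (g.good he).hasDerivAt_ip (x := fun _ => e x) (e.map_source hx)
    (hasDerivAt_const (0 : ℝ) (e x)) hl hl
  have h6 := h4.unique (h5.congr_of_eventuallyEq (by
    have hc : ContinuousAt (fun r : ℝ => geo g e x (v + r • w) s) 0 :=
      p1.comp_of_eq (f := fun r : ℝ => v + r • w) hl.continuousAt hv0
    filter_upwards [hc.preimage_mem_nhds (e'.open_source.mem_nhds
      (show geo g e x (v + (0 : ℝ) • w) s ∈ e'.source by rw [hv0]; exact hs))] with r hr
    obtain ⟨q1, q2, q3⟩ := geo_spec g he hx (v + r • w)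
    have := geod_energy isOpen_univ isPreconnected_univ (fun s _ => isGeodesic_iff.1 q1 s)
      (mem_univ s) (mem_univ 0) he' he hr (by rw [q2]; exact hx)
    rw [q2, q3] at this
    exact this))
  have h7 : chr (g.g e) (e x) 0 v = 0 := by
    rw [(g.good he).chr_symm (e.map_source hx), ← zero_smul ℝ (0 : (E n)),
      (g.good he).chr_smul (e.map_source hx), zero_smul, zero_smul]
  simp only [hv0, h7, add_zero, st] at h6
  rw [ip_comm (g.pos e' he' _ hy) (deriv _ s), ip_comm (g.pos e he _ (e.map_source hx)) v] at h6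
  rw [cov, (jac_chart g he hx v w he' hs).1.deriv, jac_eq_fst g he hx v w he' hs,
    hL.hasFDerivAt.fderiv, Function.comp_apply, (g.good he').chr_symm hy]
  linarith

omit [T2Space M] [GC g] in
theorem gauss_chart {γ : ℝ → M} (hγ : IsGeodesic g γ) {J : OpenPartialHomeomorph M (E n) → ℝ → (E n)}
    (hJ : IsJacobi g γ J) {s : ℝ} (he : e ∈ At n M) (he' : e' ∈ At n M)
    (hs : γ s ∈ e.source) (hs' : γ s ∈ e'.source) :
    ip (g.g e (e (γ s))) (J e s) (deriv (e ∘ γ) s) =
      ip (g.g e' (e' (γ s))) (J e' s) (deriv (e' ∘ γ) s) ∧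
    ip (g.g e (e (γ s))) (J e s) (J e s) = ip (g.g e' (e' (γ s))) (J e' s) (J e' s) := by
  rw [(st_tr he he' hγ.1.continuousAt hs hs' (hγ.2 e he s hs).1).deriv, hJ.1 e he e' he' s hs hs']
  exact ⟨g.compat e he e' he' _ hs hs' _ _, g.compat e he e' he' _ hs hs' _ _⟩

/-- The Gauss lemma. -/
theorem gauss_at (g : RMetric n M) [GC g] (he : e ∈ At n M) (hx : x ∈ e.source) (v w : E n)
    (s : ℝ) (he' : e' ∈ At n M) (hv : geo g e x v s ∈ e'.source) :
    ip (g.g e' (e' (geo g e x v s))) (jac g e x v w e' s) (deriv (e' ∘ geo g e x v) s) =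
      s * ip (g.g e (e x)) w v := by
  obtain ⟨hγ, -, -⟩ := geo_spec g he hx v
  obtain ⟨hJ, hJ0, -⟩ := jac_isJacobi g he hx v w
  set γ := geo g e x v with hγd
  set J := jac g e x v w with hJd
  set f : ℝ → ℝ := fun r => ip (g.g (chartAt (E n) (γ r)) (chartAt (E n) (γ r) (γ r)))
    (J (chartAt (E n) (γ r)) r) (deriv (chartAt (E n) (γ r) ∘ γ) r) with hf
  have hd : ∀ r, HasDerivAt f (ip (g.g e (e x)) w v) r := by
    intro r
    have b1 : γ r ∈ (chartAt (E n) (γ r)).source := mem_chart_source (E n) _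
    have b3 := chart_mem n (γ r)
    obtain ⟨c1, c2⟩ := hγ.2 _ b3 r b1
    have c3 := (g.good b3).hasDerivAt_ip (x := chartAt (E n) (γ r) ∘ γ)
      ((chartAt (E n) (γ r)).map_source b1) c1.hasDerivAt (hJ.2 _ b3 r b1).1.hasDerivAt c2
    refine (c3.congr_of_eventuallyEq ?_).congr_deriv ?_
    · filter_upwards [hγ.1.continuousAt.preimage_mem_nhds
        ((chartAt (E n) (γ r)).open_source.mem_nhds b1)] with q d2
      exact (gauss_chart hγ hJ (chart_mem n _) b3 (mem_chart_source (E n) _) d2).1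
    · rw [← gauss_cov g he hx v w b3 b1]
      simp [cov, hγd, hJd]
  have hd2 : ∀ r, HasDerivAt (fun r => f r - r * ip (g.g e (e x)) w v) 0 r := fun r => by
    simpa using (hd r).fun_sub ((hasDerivAt_id r).mul_const (ip (g.g e (e x)) w v))
  have hc := is_const_of_deriv_eq_zero (fun r => (hd2 r).differentiableAt)
    (fun r => (hd2 r).deriv) s 0
  have h0 : f 0 = 0 := by
    simp only [hf, hJ0 _ (chart_mem n _) (mem_chart_source (E n) _), ip_zero_left]
  have h1 := (gauss_chart hγ hJ he' (chart_mem n (γ s)) hv (mem_chart_source (E n) _)).1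
  rw [h0] at hc
  have h2 : f s = s * ip (g.g e (e x)) w v := by linarith
  exact h1.trans h2

theorem gauss (g : RMetric n M) [GC g] (he : e ∈ At n M) (hx : x ∈ e.source) (v w : E n)
    (he' : e' ∈ At n M) (hv : expm g e x v ∈ e'.source) :
    ip (g.g e' (e' (expm g e x v))) (jac g e x v w e' 1) (deriv (e' ∘ geo g e x v) 1) =
      ip (g.g e (e x)) w v := by
  simpa [expm] using gauss_at g he hx v w 1 he' hv

theorem geo_energy (g : RMetric n M) [GC g] (he : e ∈ At n M) (hx : x ∈ e.source) (w : E n)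
    (s : ℝ) (he' : e' ∈ At n M) (hs : geo g e x w s ∈ e'.source) :
    ip (g.g e' (e' (geo g e x w s))) (deriv (e' ∘ geo g e x w) s) (deriv (e' ∘ geo g e x w) s) =
      ip (g.g e (e x)) w w := by
  obtain ⟨h1, h2, h3⟩ := geo_spec g he hx w
  have h4 := geod_energy isOpen_univ isPreconnected_univ (fun s _ => isGeodesic_iff.1 h1 s)
    (mem_univ s) (mem_univ 0) he' he hs (h2.symm ▸ hx)
  rwa [h2, h3] at h4

/-- The differential inequality for the squared norm of a Jacobi field. -/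
theorem Sec.jac_ode {b : ℝ} (h : Sec g b) (he : e ∈ At n M) (hx : x ∈ e.source) (v w : E n) :
    ∃ F F1 F2 : ℝ → ℝ, (∀ c ∈ At n M, ∀ r, geo g e x v r ∈ c.source →
        F r = ip (g.g c (c (geo g e x v r))) (jac g e x v w c r) (jac g e x v w c r)) ∧
      (∀ t, HasDerivAt F (F1 t) t) ∧ (∀ t, HasDerivAt F1 (F2 t) t) ∧ F 0 = 0 ∧
      F2 0 = 2 * ip (g.g e (e x)) w w ∧ (∀ t, 0 ≤ F t) ∧ (∀ t, 0 ≤ F2 t) ∧
      (∀ t, F1 t ^ 2 ≤ 2 * F t * F2 t) ∧ ∀ t, F1 t ^ 2 + 4 * b ^ 2 * F t *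
        (F t * ip (g.g e (e x)) v v - (t * ip (g.g e (e x)) w v) ^ 2) ≤ 2 * F t * F2 t := by
  obtain ⟨hγ, hγ0, -⟩ := geo_spec g he hx v
  obtain ⟨hJ, hJ0, hJ1⟩ := jac_isJacobi g he hx v w
  set γ := geo g e x v with hγd
  set J := jac g e x v w with hJd
  set F : ℝ → ℝ := fun r => ip (g.g (chartAt (E n) (γ r)) (chartAt (E n) (γ r) (γ r)))
    (J (chartAt (E n) (γ r)) r) (J (chartAt (E n) (γ r)) r) with hF
  have hd : ∀ c ∈ At n M, ∀ r, γ r ∈ c.source → HasDerivAt F
      (2 * ip (g.g c (c (γ r))) (cov (g.g c) (c ∘ γ) (J c) r) (J c r)) r := by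
    intro c hc r b1
    have c3 := (g.good hc).hasDerivAt_ip (x := c ∘ γ) (c.map_source b1)
      (hγ.2 _ hc r b1).1.hasDerivAt (hJ.2 _ hc r b1).1.hasDerivAt (hJ.2 _ hc r b1).1.hasDerivAt
    refine (c3.congr_of_eventuallyEq ?_).congr_deriv ?_
    · filter_upwards [hγ.1.continuousAt.preimage_mem_nhds (c.open_source.mem_nhds b1)] with q d2
      exact (gauss_chart hγ hJ (chart_mem n _) hc (mem_chart_source (E n) _) d2).2
    · simp only [cov, Function.comp_apply]
      rw [ip_comm ((g.good hc).pos _ (c.map_source b1)) (J c r)]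
      ring
  have hd2 : ∀ c ∈ At n M, ∀ r, γ r ∈ c.source → HasDerivAt (deriv F)
      (2 * (ip (g.g c (c (γ r))) (cov (g.g c) (c ∘ γ) (J c) r) (cov (g.g c) (c ∘ γ) (J c) r) -
        ip (g.g c (c (γ r))) (riem (g.g c) (c (γ r)) (J c r) (deriv (c ∘ γ) r)
          (deriv (c ∘ γ) r)) (J c r))) r := by
    intro c hc r b1
    obtain ⟨c1, c2, c4⟩ := hJ.2 _ hc r b1
    have c3 := ((g.good hc).hasDerivAt_ip (x := c ∘ γ) (c.map_source b1)
      (hγ.2 _ hc r b1).1.hasDerivAt c2.hasDerivAt c1.hasDerivAt).const_mul 2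
    refine (c3.congr_of_eventuallyEq ?_).congr_deriv ?_
    · filter_upwards [hγ.1.continuousAt.preimage_mem_nhds (c.open_source.mem_nhds b1)] with q d2
      exact (hd c hc q d2).deriv
    · rw [← neg_eq_of_add_eq_zero_right c4, ip_neg_left]
      simp only [cov, Function.comp_apply]
      ring
  have hF0 : F 0 = 0 := by
    simp only [hF, hJ0 _ (chart_mem n _) (mem_chart_source (E n) _), ip_zero_left]
  have hs0 : γ 0 ∈ e.source := by rw [hγ0]; exact hx
  have h7 : ∀ u, chr (g.g e) (e x) u 0 = 0 := fun u => by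
    rw [← zero_smul ℝ (0 : E n), (g.good he).chr_smul (e.map_source hx), zero_smul, zero_smul]
  have key : ∀ r, 0 ≤ F r ∧ 0 ≤ F r * ip (g.g e (e x)) v v - (r * ip (g.g e (e x)) w v) ^ 2 ∧
      ∃ K, 0 ≤ K ∧ deriv F r ^ 2 ≤ 4 * K * F r ∧ 2 * (K + b ^ 2 *
        (F r * ip (g.g e (e x)) v v - (r * ip (g.g e (e x)) w v) ^ 2)) ≤ deriv (deriv F) r := by
    intro r
    have b3 := chart_mem n (γ r)
    have b1 := mem_chart_source (E n) (γ r)
    have b4 := g.pos _ b3 _ (mem_chart_target (E n) (γ r))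
    rw [(hd2 _ b3 r b1).deriv, (hd _ b3 r b1).deriv]
    have a1 := h (γ r) (J (chartAt (E n) (γ r)) r) (deriv (chartAt (E n) (γ r) ∘ γ) r)
    have a5 := ip_sq_le b4 (J (chartAt (E n) (γ r)) r) (deriv (chartAt (E n) (γ r) ∘ γ) r)
    have a6 := gauss_at g he hx v w r b3 b1
    have a7 := geo_energy g he hx v r b3 b1
    simp only [← hγd, ← hJd] at a6 a7
    rw [a6, a7] at a1 a5
    have a2 := ip_sq_le b4
      (cov (g.g (chartAt (E n) (γ r))) (chartAt (E n) (γ r) ∘ γ) (J (chartAt (E n) (γ r))) r)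
      (J (chartAt (E n) (γ r)) r)
    refine ⟨ip_nonneg b4 _, sub_nonneg.2 a5, _, ip_nonneg b4 (cov (g.g (chartAt (E n) (γ r)))
      (chartAt (E n) (γ r) ∘ γ) (J (chartAt (E n) (γ r))) r), ?_, ?_⟩
    · simp only [hF]
      nlinarith
    · simp only [hF]
      nlinarith
  refine ⟨F, deriv F, deriv (deriv F), fun c hc r hr =>
    (gauss_chart hγ hJ (chart_mem n _) hc (mem_chart_source (E n) _) hr).2,
    fun r => (hd _ (chart_mem n _) r (mem_chart_source (E n) _)).differentiableAt.hasDerivAt,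
    fun r => (hd2 _ (chart_mem n _) r (mem_chart_source (E n) _)).differentiableAt.hasDerivAt,
    hF0, ?_, fun r => (key r).1, fun r => ?_, fun r => ?_, fun r => ?_⟩
  · rw [(hd2 e he 0 hs0).deriv, cov, hJ0 e he hs0, hJ1, Function.comp_apply, hγ0, h7]
    simp
  · obtain ⟨a1, a2, K, a3, a4, a5⟩ := key r
    nlinarith [mul_nonneg (sq_nonneg b) a2]
  · obtain ⟨a1, a2, K, a3, a4, a5⟩ := key r
    nlinarith [mul_nonneg a1 (mul_nonneg (sq_nonneg b) a2), mul_le_mul_of_nonneg_left a5 a1]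
  · obtain ⟨a1, a2, K, a3, a4, a5⟩ := key r
    nlinarith [mul_le_mul_of_nonneg_left a5 a1]

/-- In nonpositive curvature the exponential map is expanding. -/
theorem Sec.expand {b : ℝ} (h : Sec g b) (he : e ∈ At n M) (hx : x ∈ e.source) (v w : E n)
    (he' : e' ∈ At n M) (hv : expm g e x v ∈ e'.source) :
    ip (g.g e (e x)) w w ≤
      ip (g.g e' (e' (expm g e x v))) (jac g e x v w e' 1) (jac g e x v w e' 1) := by
  obtain ⟨F, F1, F2, h0, h1, h2, h3, h4, h5, h6, h7, -⟩ := h.jac_ode he hx v w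
  have h8 := gauss_real h1 h2 h5 h6 h7 h3
  rw [h4, h0 e' he' 1 hv] at h8
  exact le_of_mul_le_mul_left h8 two_pos

theorem Sec.expInj {b : ℝ} (h : Sec g b) (he : e ∈ At n M) (hx : x ∈ e.source) :
    ExpInj g e x := fun v w e' he' hv h0 => by
  have h1 := h.expand he hx v w he' hv
  rw [h0, ip_zero_left] at h1
  by_contra h2
  exact (ip_pos (g.pos e he _ (e.map_source hx)) h2).not_ge h1

end Vale.Agent.P219.R
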