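import Vale.Agent.P219.Chart1
import Vale.Agent.P255.Flow

/-!
Existence and uniqueness of geodesics on a closed manifold.
-/

open scoped ContDiff Topology Manifold
open Set Filter

set_option maxSynthPendingDepth 3

noncomputable section

namespace Vale.Agent.P219.R

variable {n : ℕ}

variable {M : Type*} [TopologicalSpace M] [ChartedSpace (E n) M]
  [IsManifold (modelWithCornersSelf ℝ (E n)) ∞ M] {g : RMetric n M}
  {e e' : OpenPartialHomeomorph M (E n)} {γ : ℝ → M} {t : ℝ} {x : M}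

theorem tr_smooth (he : e ∈ At n M) (he' : e' ∈ At n M) (hx : x ∈ e.source)
    (hx' : x ∈ e'.source) : ContDiffAt ℝ ∞ (e' ∘ e.symm) (e x) := by
  have h1 : ContMDiffAt (modelWithCornersSelf ℝ (E n)) (modelWithCornersSelf ℝ (E n)) ∞ e.symm (e x) :=
    contMDiffAt_symm_of_mem_maximalAtlas he (e.map_source hx)
  have h2 : ContMDiffAt (modelWithCornersSelf ℝ (E n)) (modelWithCornersSelf ℝ (E n)) ∞ e'
      (e.symm (e x)) := by
    rw [e.left_inv hx]
    exact contMDiffAt_of_mem_maximalAtlas he' hx'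
  exact contMDiffAt_iff_contDiffAt.1 (h2.comp _ h1)

theorem st_tr (he : e ∈ At n M) (he' : e' ∈ At n M) (hc : ContinuousAt γ t)
    (ht : γ t ∈ e.source) (ht' : γ t ∈ e'.source) (hd : DifferentiableAt ℝ (e ∘ γ) t) :
    HasDerivAt (e' ∘ γ) (tr e e' (γ t) (deriv (e ∘ γ) t)) t := by
  have h1 : HasFDerivAt (e' ∘ e.symm) (fderiv ℝ (e' ∘ e.symm) (e (γ t))) ((e ∘ γ) t) :=
    ((tr_smooth he he' ht ht').differentiableAt (by simp)).hasFDerivAt
  refine (h1.comp_hasDerivAt t hd.hasDerivAt).congr_of_eventuallyEq ?_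
  filter_upwards [hc.preimage_mem_nhds (e.open_source.mem_nhds ht)] with s hs
  simp only [Function.comp_apply]
  rw [e.left_inv hs]

theorem geod_tr_tr (he : e ∈ At n M) (he' : e' ∈ At n M) (hx : x ∈ e.source)
    (hx' : x ∈ e'.source) (v : (E n)) : tr e' e x (tr e e' x v) = v := by
  have h1 : HasFDerivAt (e' ∘ e.symm) (fderiv ℝ (e' ∘ e.symm) (e x)) (e x) :=
    ((tr_smooth he he' hx hx').differentiableAt (by simp)).hasFDerivAt
  have h2 : HasFDerivAt (e ∘ e'.symm) (fderiv ℝ (e ∘ e'.symm) (e' x)) ((e' ∘ e.symm) (e x)) := by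
    have : (e' ∘ e.symm) (e x) = e' x := by simp [e.left_inv hx]
    rw [this]
    exact ((tr_smooth he' he hx' hx).differentiableAt (by simp)).hasFDerivAt
  have h3 : HasFDerivAt (fun y : (E n) => y)
      ((fderiv ℝ (e ∘ e'.symm) (e' x)).comp (fderiv ℝ (e' ∘ e.symm) (e x))) (e x) := by
    refine (h2.comp _ h1).congr_of_eventuallyEq ?_
    have hc : ContinuousAt e.symm (e x) := e.continuousAt_symm (e.map_source hx)
    have hm : e'.source ∈ 𝓝 (e.symm (e x)) := by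
      rw [e.left_inv hx]; exact e'.open_source.mem_nhds hx'
    filter_upwards [hc.preimage_mem_nhds hm, e.open_target.mem_nhds (e.map_source hx)] with y hy hy'
    simp only [Function.comp_apply]
    rw [e'.left_inv hy, e.right_inv hy']
  have h4 := h3.unique (hasFDerivAt_id (e x))
  have h5 := congrArg (fun L : (E n) →L[ℝ] (E n) => L v) h4
  simpa [tr] using h5

omit [IsManifold (modelWithCornersSelf ℝ (E n)) ∞ M] in
theorem GeodAt.congr {γ' : ℝ → M} (h : GeodAt g γ t) (hh : γ' =ᶠ[𝓝 t] γ) : GeodAt g γ' t := by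
  have h0 : γ' t = γ t := hh.self_of_nhds
  refine ⟨h.1.congr hh.symm, fun e he ht => ?_⟩
  have h1 : e ∘ γ' =ᶠ[𝓝 t] e ∘ γ := hh.fun_comp e
  obtain ⟨h2, h3⟩ := h.2 e he (h0 ▸ ht)
  refine ⟨h2.congr_of_eventuallyEq h1, ?_⟩
  rw [h0, h1.deriv_eq]
  exact h3.congr_of_eventuallyEq h1.deriv

theorem geod_second {φ : (E n) → (E n)} {x v : ℝ → (E n)} {v' : (E n)} (hφ : ContDiffAt ℝ ∞ φ (x t))
    (hx : HasDerivAt x (v t) t) (hv : HasDerivAt v v' t) :
    HasDerivAt (fun s => fderiv ℝ φ (x s) (v s))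
      (fderiv ℝ (fun y => fderiv ℝ φ y (v t)) (x t) (v t) + fderiv ℝ φ (x t) v') t := by
  have hD : HasFDerivAt (fderiv ℝ φ) (fderiv ℝ (fderiv ℝ φ) (x t)) (x t) :=
    ((hφ.fderiv_right (m := ∞) (by simp)).differentiableAt (by simp)).hasFDerivAt
  have h8 : fderiv ℝ (fun y => fderiv ℝ φ y (v t)) (x t) (v t) =
      fderiv ℝ (fderiv ℝ φ) (x t) (v t) (v t) := by
    rw [(hD.clm_apply (hasFDerivAt_const (v t) (x t))).fderiv]
    simp
  rw [h8]
  exact (hD.comp_hasDerivAt t hx).clm_apply hv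

theorem geodAt_of_chart (he : e ∈ At n M) {z : ℝ → (E n) × (E n)}
    (hz : ∀ᶠ s in 𝓝 t, (z s).1 ∈ e.target ∧ HasDerivAt z (Wf (g.g e) (z s)) s)
    (hγ : γ =ᶠ[𝓝 t] fun s => e.symm (z s).1) :
    GeodAt g γ t ∧ γ t ∈ e.source ∧ st e γ t = z t := by
  have hx : ∀ᶠ s in 𝓝 t, HasDerivAt (fun s => (z s).1) (z s).2 s := by
    filter_upwards [hz] with s hs
    exact (ContinuousLinearMap.fst ℝ (E n) (E n)).hasFDerivAt.comp_hasDerivAt s hs.2
  have hv : HasDerivAt (fun s => (z s).2) (- chr (g.g e) (z t).1 (z t).2 (z t).2) t :=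
    (ContinuousLinearMap.snd ℝ (E n) (E n)).hasFDerivAt.comp_hasDerivAt t hz.self_of_nhds.2
  have ht := hz.self_of_nhds.1
  have hγt : γ t = e.symm (z t).1 := hγ.self_of_nhds
  have hc : ContinuousAt γ t :=
    ((e.continuousAt_symm ht).comp (f := fun s => (z s).1)
      hx.self_of_nhds.continuousAt).congr hγ.symm
  have hs : γ t ∈ e.source := hγt ▸ e.map_target ht
  have heγ : e ∘ γ =ᶠ[𝓝 t] fun s => (z s).1 := by
    filter_upwards [hz, hγ] with s h1 h2
    simp only [Function.comp_apply, h2, e.right_inv h1.1]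
  have hezt : e (γ t) = (z t).1 := heγ.self_of_nhds
  refine ⟨⟨hc, fun e' he' ht' => ?_⟩, hs, ?_⟩
  swap
  · simp only [st, hezt, heγ.deriv_eq, hx.self_of_nhds.deriv]
  set φ : (E n) → (E n) := e' ∘ e.symm with hφ
  have hφs : ContDiffAt ℝ ∞ φ (z t).1 := hezt ▸ tr_smooth he he' hs ht'
  have hnear : ∀ᶠ s in 𝓝 t, HasDerivAt (e' ∘ γ) (fderiv ℝ φ (z s).1 (z s).2) s := by
    filter_upwards [hz, hx, hγ.eventuallyEq_nhds,
      hc.preimage_mem_nhds (e'.open_source.mem_nhds ht')] with s h1 h2 h3 h4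
    have h5 : γ s = e.symm (z s).1 := h3.self_of_nhds
    have h6 : ContDiffAt ℝ ∞ φ (z s).1 := by
      have := tr_smooth he he' (h5 ▸ e.map_target h1.1) h4
      rwa [h5, e.right_inv h1.1] at this
    refine ((h6.differentiableAt (by simp)).hasFDerivAt.comp_hasDerivAt s
      h2).congr_of_eventuallyEq ?_
    exact h3.fun_comp e'
  have hd : deriv (e' ∘ γ) =ᶠ[𝓝 t] fun s => fderiv ℝ φ (z s).1 (z s).2 :=
    hnear.mono fun s hs => hs.deriv
  refine ⟨hnear.self_of_nhds.differentiableAt, ?_⟩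
  have h7 := geod_second hφs hx.self_of_nhds hv
  have hφt : φ (z t).1 = e' (γ t) := by rw [hγt]; rfl
  have hiso : ∀ᶠ y in 𝓝 (z t).1, ∀ u v, ip (g.g e y) u v =
      ip (g.g e' (φ y)) (fderiv ℝ φ y u) (fderiv ℝ φ y v) := by
    have hm : e'.source ∈ 𝓝 (e.symm (z t).1) := hγt ▸ e'.open_source.mem_nhds ht'
    filter_upwards [(e.continuousAt_symm ht).preimage_mem_nhds hm,
      e.open_target.mem_nhds ht] with y hy hy' u v
    have := g.compat e he e' he' (e.symm y) (e.map_target hy') hy u v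
    simp only [tr, e.right_inv hy'] at this
    exact this
  have h9 := (g.good he).chr_transform (g.good he') ht (hφt ▸ e'.map_source ht') hφs hiso
    (z t).2 (z t).2
  rw [hd.self_of_nhds]
  refine (h7.congr_of_eventuallyEq hd).congr_deriv ?_
  rw [map_neg, h9, hφt]
  abel

omit [IsManifold (modelWithCornersSelf ℝ (E n)) ∞ M] in
theorem st_ode (hγ : ∀ᶠ s in 𝓝 t, GeodAt g γ s) (he : e ∈ At n M) (ht : γ t ∈ e.source) :
    ∀ᶠ s in 𝓝 t, γ s ∈ e.source ∧ HasDerivAt (st e γ) (Wf (g.g e) (st e γ s)) s := by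
  filter_upwards [hγ, hγ.self_of_nhds.1.preimage_mem_nhds (e.open_source.mem_nhds ht)]
    with s h1 h2
  obtain ⟨h3, h4⟩ := h1.2 e he h2
  exact ⟨h2, h3.hasDerivAt.prodMk h4⟩

omit [IsManifold (modelWithCornersSelf ℝ (E n)) ∞ M] in
theorem geod_unique_loc {γ' : ℝ → M} (h1 : ∀ᶠ s in 𝓝 t, GeodAt g γ s)
    (h2 : ∀ᶠ s in 𝓝 t, GeodAt g γ' s) (he : e ∈ At n M) (hs : γ t ∈ e.source)
    (hs' : γ' t ∈ e.source) (h0 : st e γ t = st e γ' t) : γ =ᶠ[𝓝 t] γ' := by
  have a1 := st_ode h1 he hs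
  have a2 := st_ode h2 he hs'
  have hW : ContDiffAt ℝ 1 (Wf (g.g e)) (st e γ t) :=
    ((g.good he).Wf_smooth.contDiffAt ((e.open_target.prod isOpen_univ).mem_nhds
      ⟨e.map_source hs, trivial⟩)).of_le (by exact_mod_cast le_top)
  obtain ⟨K, S, hS, hK⟩ := hW.exists_lipschitzOnWith
  have b1 := a1.self_of_nhds.2.continuousAt.preimage_mem_nhds hS
  have b2 := a2.self_of_nhds.2.continuousAt.preimage_mem_nhds (h0 ▸ hS)
  have h3 : st e γ =ᶠ[𝓝 t] st e γ' :=
    ODE_solution_unique_of_eventually (v := fun _ => Wf (g.g e)) (s := fun _ => S) (K := K)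
      (Eventually.of_forall fun _ => hK)
      (by filter_upwards [a1, b1] with s c1 c2 using ⟨c1.2, c2⟩)
      (by filter_upwards [a2, b2] with s c1 c2 using ⟨c1.2, c2⟩) h0
  filter_upwards [h3, a1, a2] with s c1 c2 c3
  exact e.injOn c2.1 c3.1 (congrArg Prod.fst c1)

theorem geod_unique [T2Space M] {S : Set ℝ} (hS : IsOpen S) (hS' : IsPreconnected S)
    {γ' : ℝ → M} (h1 : ∀ s ∈ S, GeodAt g γ s) (h2 : ∀ s ∈ S, GeodAt g γ' s) (ht : t ∈ S)
    (he : e ∈ At n M) (hs : γ t ∈ e.source) (h0 : γ t = γ' t)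
    (hv : deriv (e ∘ γ) t = deriv (e ∘ γ') t) : EqOn γ γ' S := by
  have a1 : ∀ s ∈ S, ∀ᶠ r in 𝓝 s, GeodAt g γ r := fun s hs =>
    eventually_of_mem (hS.mem_nhds hs) h1
  have a2 : ∀ s ∈ S, ∀ᶠ r in 𝓝 s, GeodAt g γ' r := fun s hs =>
    eventually_of_mem (hS.mem_nhds hs) h2
  have key : S ⊆ {s | γ =ᶠ[𝓝 s] γ'} := by
    refine hS'.subset_of_closure_inter_subset (isOpen_setOfPred_eventually_nhds) ⟨t, ht, ?_⟩ ?_
    · exact geod_unique_loc (a1 t ht) (a2 t ht) he hs (h0 ▸ hs) (by simp only [st, h0, hv])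
    · rintro s ⟨hc, hsS⟩
      have hf : ∃ᶠ r in 𝓝 s, γ =ᶠ[𝓝 r] γ' := mem_closure_iff_frequently.1 hc
      have b0 : γ s = γ' s := tendsto_nhds_unique_of_frequently_eq (h1 s hsS).1 (h2 s hsS).1
        (hf.mono fun r hr => hr.self_of_nhds)
      have b1 : γ s ∈ (chartAt (E n) (γ s)).source := mem_chart_source (E n) _
      have b2 : γ' s ∈ (chartAt (E n) (γ s)).source := b0 ▸ b1
      have b3 := chart_mem n (γ s)
      refine geod_unique_loc (a1 s hsS) (a2 s hsS) b3 b1 b2 ?_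
      refine tendsto_nhds_unique_of_frequently_eq
        (st_ode (a1 s hsS) b3 b1).self_of_nhds.2.continuousAt
        (st_ode (a2 s hsS) b3 b2).self_of_nhds.2.continuousAt (hf.mono fun r hr => ?_)
      simp only [st, hr.self_of_nhds, (hr.fun_comp (chartAt (E n) (γ s))).deriv_eq]
  exact fun s hs => (key hs).self_of_nhds

theorem geod_energy_chart (h : GeodAt g γ t) (he : e ∈ At n M) (he' : e' ∈ At n M)
    (ht : γ t ∈ e.source) (ht' : γ t ∈ e'.source) :
    ip (g.g e (e (γ t))) (deriv (e ∘ γ) t) (deriv (e ∘ γ) t) =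
      ip (g.g e' (e' (γ t))) (deriv (e' ∘ γ) t) (deriv (e' ∘ γ) t) := by
  rw [(st_tr he he' h.1 ht ht' (h.2 e he ht).1).deriv]
  exact g.compat e he e' he' _ ht ht' _ _

theorem geod_energy {S : Set ℝ} (hS : IsOpen S) (hS' : IsPreconnected S)
    (h1 : ∀ s ∈ S, GeodAt g γ s) {s : ℝ} (hs : s ∈ S) (ht : t ∈ S)
    (he : e ∈ At n M) (he' : e' ∈ At n M) (hse : γ s ∈ e.source) (hte : γ t ∈ e'.source) :
    ip (g.g e (e (γ s))) (deriv (e ∘ γ) s) (deriv (e ∘ γ) s) =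
      ip (g.g e' (e' (γ t))) (deriv (e' ∘ γ) t) (deriv (e' ∘ γ) t) := by
  set en : ℝ → ℝ := fun r => ip (g.g (chartAt (E n) (γ r)) (chartAt (E n) (γ r) (γ r)))
    (deriv (chartAt (E n) (γ r) ∘ γ) r) (deriv (chartAt (E n) (γ r) ∘ γ) r) with hen
  have hd : ∀ r ∈ S, HasDerivAt en 0 r := by
    intro r hr
    have b1 : γ r ∈ (chartAt (E n) (γ r)).source := mem_chart_source (E n) _
    have b3 := chart_mem n (γ r)
    obtain ⟨c1, c2⟩ := (h1 r hr).2 _ b3 b1
    have c3 := (g.good b3).hasDerivAt_ip (x := chartAt (E n) (γ r) ∘ γ)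
      ((chartAt (E n) (γ r)).map_source b1) c1.hasDerivAt c2 c2
    refine (c3.congr_of_eventuallyEq ?_).congr_deriv ?_
    · filter_upwards [hS.mem_nhds hr, (h1 r hr).1.preimage_mem_nhds
        ((chartAt (E n) (γ r)).open_source.mem_nhds b1)] with q d1 d2
      exact geod_energy_chart (h1 q d1) (chart_mem n _) b3 (mem_chart_source (E n) _) d2
    · simp
  have hc : en s = en t := hS.is_const_of_deriv_eq_zero hS'
    (fun r hr => (hd r hr).differentiableAt.differentiableWithinAt)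
    (fun r hr => (hd r hr).deriv) hs ht
  rw [geod_energy_chart (h1 s hs) he (chart_mem n _) hse (mem_chart_source (E n) _),
    geod_energy_chart (h1 t ht) he' (chart_mem n _) hte (mem_chart_source (E n) _)]
  exact hc

omit [IsManifold (modelWithCornersSelf ℝ (E n)) ∞ M] in
theorem geod_affine {a b s : ℝ} (hγ : ∀ᶠ r in 𝓝 (a * s + b), GeodAt g γ r) :
    GeodAt g (fun s => γ (a * s + b)) s ∧ ∀ e ∈ At n M, γ (a * s + b) ∈ e.source →
      deriv (e ∘ fun s => γ (a * s + b)) s = a • deriv (e ∘ γ) (a * s + b) := by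
  have hl : ∀ r : ℝ, HasDerivAt (fun s => a * s + b) a r := fun r => by
    simpa using ((hasDerivAt_id r).const_mul a).add_const b
  have hd : ∀ e ∈ At n M, γ (a * s + b) ∈ e.source → ∀ᶠ r in 𝓝 s,
      HasDerivAt (e ∘ fun s => γ (a * s + b)) (a • deriv (e ∘ γ) (a * r + b)) r := by
    intro e he hs
    have h1 := (hl s).continuousAt.eventually (st_ode hγ he hs)
    have h2 := (hl s).continuousAt.eventually hγ
    filter_upwards [h1, h2] with r c1 c2
    exact ((c2.2 e he c1.1).1.hasDerivAt.scomp r (hl r))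
  refine ⟨⟨hγ.self_of_nhds.1.comp (f := fun s => a * s + b) (hl s).continuousAt,
    fun e he hs => ⟨(hd e he hs).self_of_nhds.differentiableAt, ?_⟩⟩,
    fun e he hs => (hd e he hs).self_of_nhds.deriv⟩
  have h3 : deriv (e ∘ fun s => γ (a * s + b)) =ᶠ[𝓝 s]
      fun r => a • deriv (e ∘ γ) (a * r + b) := (hd e he hs).mono fun r hr => hr.deriv
  have h4 := ((hγ.self_of_nhds.2 e he hs).2.scomp s (hl s)).const_smul a
  rw [h3.self_of_nhds]
  refine (h4.congr_of_eventuallyEq h3).congr_deriv ?_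
  have hy := e.map_source hs
  rw [(g.good he).chr_smul hy, (g.good he).chr_symm hy (a • _), (g.good he).chr_smul hy]
  simp

theorem geod_lower {G : (E n) → (Bil n)} {U : Set (E n)} (h : Good G U) {y : (E n)} (hy : y ∈ U) (c : ℝ) :
    ∃ R : ℝ, ∀ᶠ z in 𝓝 y, ∀ v, ip (G z) v v ≤ c → v ∈ Metric.closedBall (0 : (E n)) R := by
  have h1 : ∀ᶠ p : (E n) × ℝ in 𝓝 (y, 0), ∀ u ∈ Metric.sphere (0 : (E n)) 1, p.2 < ip (G p.1) u u := by
    refine (isCompact_sphere (0 : (E n)) 1).eventually_forall_of_forall_eventually fun u hu => ?_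
    have hu0 : u ≠ 0 := by rintro rfl; simp at hu
    have hG : ContinuousAt (fun q : (E n × ℝ) × E n => G q.1.1) ((y, 0), u) :=
      (h.smooth.continuousOn.continuousAt (h.isOpen.mem_nhds hy)).comp_of_eq
        (f := fun q : (E n × ℝ) × E n => q.1.1) (by fun_prop) rfl
    have hc : ContinuousAt (fun q : (E n × ℝ) × E n => ip (G q.1.1) q.2 q.2) ((y, 0), u) :=
      (hG.clm_apply continuousAt_snd).clm_apply continuousAt_snd
    exact ContinuousAt.eventually_lt (f := fun q : ((E n) × ℝ) × (E n) => q.1.2) (by fun_prop) hc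
      (ip_pos (h.pos y hy) hu0)
  rw [nhds_prod_eq] at h1
  obtain ⟨pa, ha, pb, hb, h2⟩ := eventually_prod_iff.1 h1
  obtain ⟨m, hm, hm0⟩ := ((hb.filter_mono (nhdsWithin_le_nhds (s := Ioi 0))).and
    self_mem_nhdsWithin).exists
  have hm0 : 0 < m := hm0
  refine ⟨1 + |c| / m, ha.mono fun z hz v hv => ?_⟩
  rw [mem_closedBall_zero_iff]
  by_contra hlt
  push Not at hlt
  have hq : 0 ≤ |c| / m := by positivity
  have hn : 0 < ‖v‖ := by linarith
  have h3 := h2 hz hm (‖v‖⁻¹ • v) (by simp [norm_smul, hn.ne'])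
  rw [ip_smul_left, ip_smul_right] at h3
  have h4 : m * (‖v‖ * ‖v‖) < ip (G z) v v := by
    have := mul_lt_mul_of_pos_left h3 (mul_pos hn hn)
    field_simp at this
    nlinarith
  have h5 : |c| < m * ‖v‖ := by
    have : |c| / m < ‖v‖ := by linarith
    rw [div_lt_iff₀ hm0] at this; linarith
  nlinarith [le_abs_self c, abs_nonneg c]

theorem geod_short (g : RMetric n M) (c : ℝ) (x0 : M) : ∃ ε > 0, ∀ᶠ x in 𝓝 x0,
    ∀ e ∈ At n M, x ∈ e.source → ∀ v, ip (g.g e (e x)) v v ≤ c →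
      ∃ γ, (∀ s ∈ Ioo (-ε) ε, GeodAt g γ s) ∧ γ 0 = x ∧ deriv (e ∘ γ) 0 = v := by
  have h1 : ∀ᶠ q : ℝ × M in 𝓝 (0, x0), 0 < q.1 →
      ∀ e ∈ At n M, q.2 ∈ e.source → ∀ v, ip (g.g e (e q.2)) v v ≤ c →
      ∃ γ, (∀ s ∈ Ioo (-q.1) q.1, GeodAt g γ s) ∧ γ 0 = q.2 ∧ deriv (e ∘ γ) 0 = v := by
    set e0 := chartAt (E n) x0
    have he0 : e0 ∈ At n M := chart_mem n x0
    have hx0 : x0 ∈ e0.source := mem_chart_source (E n) x0
    obtain ⟨R, hR⟩ := geod_lower (g.good he0) (e0.map_source hx0) c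
    have h2 : ∀ᶠ p : ℝ × (E n) in 𝓝 (0, e0 x0), ∀ v ∈ Metric.closedBall (0 : (E n)) R,
        ∃ z : ℝ → (E n) × (E n), z 0 = (p.2, v) ∧ ∀ τ ∈ Ioo (-p.1) p.1,
          (z τ).1 ∈ e0.target ∧ HasDerivAt z (Wf (g.g e0) (z τ)) τ := by
      refine (isCompact_closedBall (0 : (E n)) R).eventually_forall_of_forall_eventually
        fun v _ => ?_
      obtain ⟨ε, hε, N, hN, hzN, φ, L, hφ⟩ := P255.local_flow (e0.open_target.prod isOpen_univ)
        (g.good he0).Wf_smooth (z0 := (e0 x0, v)) ⟨e0.map_source hx0, trivial⟩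
      have a1 : ∀ᶠ q : (ℝ × (E n)) × (E n) in 𝓝 ((0, e0 x0), v), (q.1.2, q.2) ∈ N :=
        ContinuousAt.preimage_mem_nhds (f := fun q : (ℝ × (E n)) × (E n) => (q.1.2, q.2))
          (by fun_prop) (hN.mem_nhds hzN)
      have a2 : ∀ᶠ q : (ℝ × (E n)) × (E n) in 𝓝 ((0, e0 x0), v), q.1.1 < ε :=
        ContinuousAt.eventually_lt (f := fun q : (ℝ × (E n)) × (E n) => q.1.1) (by fun_prop)
          continuousAt_const hε
      filter_upwards [a1, a2] with q b1 b2
      refine ⟨φ (q.1.2, q.2), (hφ _ b1).1, fun τ hτ => ?_⟩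
      have b3 := (hφ _ b1).2.2 τ ⟨by linarith [hτ.1], by linarith [hτ.2]⟩
      exact ⟨b3.1.1, b3.2.1⟩
    have hc : ContinuousAt e0 x0 := e0.continuousAt hx0
    have hc1 : ContinuousAt (fun q : ℝ × M => e0 q.2) (0, x0) :=
      hc.comp_of_eq (f := fun q : ℝ × M => q.2) continuousAt_snd rfl
    have hc2 : ContinuousAt (fun q : ℝ × M => (q.1, e0 q.2)) (0, x0) := continuousAt_fst.prodMk hc1
    have hc3 : ∀ᶠ q : ℝ × M in 𝓝 (0, x0), q.2 ∈ e0.source :=
      continuousAt_snd.preimage_mem_nhds (e0.open_source.mem_nhds hx0)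
    filter_upwards [hc1.eventually hR, hc2.eventually h2, hc3] with q b1 b2 b3 hq e he hx v hv
    rw [g.compat e he e0 he0 _ hx b3] at hv
    obtain ⟨z, hz0, hz⟩ := b2 _ (b1 _ hv)
    have b4 : ∀ s ∈ Ioo (-q.1) q.1, GeodAt g (fun s => e0.symm (z s).1) s ∧
        e0.symm (z s).1 ∈ e0.source ∧ st e0 (fun s => e0.symm (z s).1) s = z s := fun s hs =>
      geodAt_of_chart he0 (eventually_of_mem (isOpen_Ioo.mem_nhds hs) hz) EventuallyEq.rfl
    have b5 : (0 : ℝ) ∈ Ioo (-q.1) q.1 := ⟨by linarith, hq⟩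
    have b6 : e0.symm (z 0).1 = q.2 := by rw [hz0]; exact e0.left_inv b3
    refine ⟨fun s => e0.symm (z s).1, fun s hs => (b4 s hs).1, b6, ?_⟩
    obtain ⟨c1, c2, c3⟩ := b4 0 b5
    rw [(st_tr he0 he c1.1 c2 (by rw [b6]; exact hx) (c1.2 e0 he0 c2).1).deriv]
    have c4 : deriv (e0 ∘ fun s => e0.symm (z s).1) 0 = tr e e0 q.2 v := by
      have := congrArg Prod.snd c3
      rw [hz0] at this
      exact this
    rw [c4, b6]
    exact geod_tr_tr he he0 hx b3 v
  rw [nhds_prod_eq] at h1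
  obtain ⟨pa, ha, pb, hb, h2⟩ := eventually_prod_iff.1 h1
  obtain ⟨ε, h3, h4⟩ := ((ha.filter_mono (nhdsWithin_le_nhds (s := Ioi 0))).and
    self_mem_nhdsWithin).exists
  exact ⟨ε, h4, hb.mono fun x hx => h2 h3 hx h4⟩

omit [IsManifold (modelWithCornersSelf ℝ (E n)) ∞ M] in
theorem IsGeodesic.affine (hγ : IsGeodesic g γ) (a b : ℝ) :
    IsGeodesic g (fun s => γ (a * s + b)) ∧ ∀ e ∈ At n M, ∀ s, γ (a * s + b) ∈ e.source →
      deriv (e ∘ fun s => γ (a * s + b)) s = a • deriv (e ∘ γ) (a * s + b) := by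
  have h := isGeodesic_iff.1 hγ
  exact ⟨isGeodesic_iff.2 fun s => (geod_affine (Eventually.of_forall h)).1,
    fun e he s hs => (geod_affine (Eventually.of_forall h)).2 e he hs⟩

end Vale.Agent.P219.R
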