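import Vale.Agent.P219.Geod

/-!
Complete Riemannian manifolds are geodesically complete.
-/

open scoped ContDiff Topology Manifold
open Set Filter

set_option maxSynthPendingDepth 3

noncomputable section

namespace Vale.Agent.P219.R

variable {n : ℕ} {M : Type*} [MetricSpace M] [ChartedSpace (E n) M]
  [IsManifold (modelWithCornersSelf ℝ (E n)) ∞ M] {g : RMetric n M}
  {e : OpenPartialHomeomorph M (E n)} {x : M}

theorem geod_exists [CompleteSpace M] (hg : Compat g) (he : e ∈ At n M)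
    (hx : x ∈ e.source) (v : (E n)) : ∃ γ, IsGeodesic g γ ∧ γ 0 = x ∧ deriv (e ∘ γ) 0 = v := by
  classical
  let Adm : (ℝ → M) → Set ℝ → Prop := fun γ S => IsOpen S ∧ IsPreconnected S ∧ 0 ∈ S ∧
    (∀ s ∈ S, GeodAt g γ s) ∧ γ 0 = x ∧ deriv (e ∘ γ) 0 = v
  have huniq : ∀ γ S γ' S', Adm γ S → Adm γ' S' → EqOn γ γ' (S ∩ S') := by
    rintro γ S γ' S' ⟨a1, a2, a3, a4, a5, a6⟩ ⟨b1, b2, b3, b4, b5, b6⟩
    exact geod_unique (a1.inter b1) (a2.ordConnected.inter b2.ordConnected).isPreconnected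
      (fun s hs => a4 s hs.1) (fun s hs => b4 s hs.2) ⟨a3, b3⟩ he (a5 ▸ hx) (a5.trans b5.symm)
      (a6.trans b6.symm)
  have hc0 := ip_nonneg (g.pos e he _ (e.map_source hx)) v
  have hlip : ∀ γ S, Adm γ S → ∀ a ∈ S, ∀ b ∈ S, a ≤ b →
      dist (γ a) (γ b) ≤ √(ip (g.g e (e x)) v v) * (b - a) := by
    rintro γ S ⟨a1, a2, a3, a4, a5, a6⟩ a ha b hb hab
    refine hg.up γ a b _ hab (Real.sqrt_nonneg _) fun r hr => ?_
    have hr' := a2.ordConnected.out ha hb hr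
    have b1 : γ r ∈ (chartAt (E n) (γ r)).source := mem_chart_source (E n) _
    refine ⟨(a4 r hr').1, _, chart_mem n (γ r), b1, ((a4 r hr').2 _ (chart_mem n _) b1).1, ?_⟩
    rw [geod_energy a1 a2 a4 hr' a3 (chart_mem n _) he b1 (a5 ▸ hx), a5, a6, Real.sq_sqrt hc0]
  have hlip2 : ∀ γ S γ' S', Adm γ S → Adm γ' S' → ∀ a ∈ S, ∀ b ∈ S', a ≤ b →
      dist (γ a) (γ' b) ≤ √(ip (g.g e (e x)) v v) * (b - a) := by
    intro γ S γ' S' h1 h2 a ha b hb hab
    rcases le_total 0 a with h3 | h3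
    · have h4 := h2.2.1.ordConnected.out h2.2.2.1 hb ⟨h3, hab⟩
      rw [huniq _ _ _ _ h1 h2 ⟨ha, h4⟩]
      exact hlip _ _ h2 a h4 b hb hab
    rcases le_total b 0 with h4 | h4
    · have h5 := h1.2.1.ordConnected.out ha h1.2.2.1 ⟨hab, h4⟩
      rw [← huniq _ _ _ _ h1 h2 ⟨h5, hb⟩]
      exact hlip _ _ h1 a ha b h5 hab
    have h5 := hlip _ _ h1 a ha 0 h1.2.2.1 h3
    have h6 := hlip _ _ h2 0 h2.2.2.1 b hb h4
    rw [h1.2.2.2.2.1] at h5
    rw [h2.2.2.2.2.1] at h6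
    linarith [dist_triangle (γ a) x (γ' b)]
  have hlim : ∀ t ∈ closure {t : ℝ | ∃ γ S, Adm γ S ∧ t ∈ S}, ∃ p : M, ∀ N ∈ 𝓝 p, ∀ ε > 0,
      ∃ t1 γ S, Adm γ S ∧ t1 ∈ S ∧ dist t t1 < ε ∧ γ t1 ∈ N := by
    intro t ht
    obtain ⟨u, hu, hut⟩ := mem_closure_iff_seq_limit.1 ht
    choose Γ S hΓ hS using hu
    have hcs : CauchySeq fun j => Γ j (u j) := by
      refine Metric.cauchySeq_iff.2 fun δ hδ => ?_
      obtain ⟨N, hN⟩ := Metric.cauchySeq_iff.1 hut.cauchySeq (δ / (√(ip (g.g e (e x)) v v) + 1))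
        (by positivity)
      refine ⟨N, fun i hi j hj => ?_⟩
      have h1 := hN i hi j hj
      have h0 := Real.sqrt_nonneg (ip (g.g e (e x)) v v)
      rw [lt_div_iff₀ (by positivity), Real.dist_eq] at h1
      rcases le_total (u i) (u j) with h2 | h2
      · have h3 := hlip2 _ _ _ _ (hΓ i) (hΓ j) _ (hS i) _ (hS j) h2
        rw [abs_sub_comm, abs_of_nonneg (sub_nonneg.2 h2)] at h1
        nlinarith
      · have h3 := hlip2 _ _ _ _ (hΓ j) (hΓ i) _ (hS j) _ (hS i) h2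
        rw [abs_of_nonneg (sub_nonneg.2 h2)] at h1
        rw [dist_comm]
        nlinarith
    obtain ⟨p, hp⟩ := cauchySeq_tendsto_of_complete hcs
    refine ⟨p, fun N hN ε hε => ?_⟩
    obtain ⟨j, h1, h2⟩ := ((hp.eventually_mem hN).and
      (hut.eventually (Metric.ball_mem_nhds t hε))).exists
    exact ⟨u j, Γ j, S j, hΓ j, hS j, by rw [dist_comm]; exact h2, h1⟩
  have hall : ∀ t : ℝ, ∃ γ S, Adm γ S ∧ t ∈ S := by
    have hA : IsClopen {t : ℝ | ∃ γ S, Adm γ S ∧ t ∈ S} := by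
      constructor
      · refine isClosed_of_closure_subset fun t ht => ?_
        obtain ⟨p, hp⟩ := hlim t ht
        obtain ⟨ε, hε, hsh⟩ := geod_short g (ip (g.g e (e x)) v v) p
        obtain ⟨t1, γ, S, ⟨a1, a2, a3, a4, a5, a6⟩, h1, h2, hsh⟩ := hp _ hsh ε hε
        have b1 : γ t1 ∈ (chartAt (E n) (γ t1)).source := mem_chart_source (E n) _
        have b3 := chart_mem n (γ t1)
        obtain ⟨γ1, c1, c2, c3⟩ := hsh _ b3 b1 (deriv (chartAt (E n) (γ t1) ∘ γ) t1) (by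
          rw [geod_energy a1 a2 a4 h1 a3 b3 he b1 (a5 ▸ hx), a5, a6])
        have hI : ∀ s ∈ Ioo (t1 - ε) (t1 + ε), ∀ᶠ r in 𝓝 (1 * s + -t1), GeodAt g γ1 r :=
          fun s hs => eventually_of_mem (isOpen_Ioo.mem_nhds
            (show 1 * s + -t1 ∈ Ioo (-ε) ε from ⟨by linarith [hs.1], by linarith [hs.2]⟩)) c1
        have ht1 : t1 ∈ Ioo (t1 - ε) (t1 + ε) := ⟨by linarith, by linarith⟩
        have hz : 1 * t1 + -t1 = 0 := by ring
        have heq : EqOn γ (fun s => γ1 (1 * s + -t1)) (S ∩ Ioo (t1 - ε) (t1 + ε)) := by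
          refine geod_unique (a1.inter isOpen_Ioo)
            (a2.ordConnected.inter ordConnected_Ioo).isPreconnected (fun s hs => a4 s hs.1)
            (fun s hs => (geod_affine (hI s hs.2)).1) ⟨h1, ht1⟩ b3 b1 (by simp only [hz, c2]) ?_
          rw [(geod_affine (hI t1 ht1)).2 _ b3 (by rw [hz, c2]; exact b1), hz, c3, one_smul]
        have hS : ∀ s ∈ S, S.piecewise γ (fun s => γ1 (1 * s + -t1)) =ᶠ[𝓝 s] γ := fun s hs =>
          eventually_of_mem (a1.mem_nhds hs) fun r hr => piecewise_eq_of_mem _ _ _ hr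
        refine ⟨S.piecewise γ (fun s => γ1 (1 * s + -t1)), S ∪ Ioo (t1 - ε) (t1 + ε),
          ⟨a1.union isOpen_Ioo, a2.union t1 h1 ht1 isPreconnected_Ioo, Or.inl a3, ?_, ?_, ?_⟩,
          Or.inr ?_⟩
        · rintro s (hs | hs)
          · exact (a4 s hs).congr (hS s hs)
          · refine (geod_affine (hI s hs)).1.congr
              (eventually_of_mem (isOpen_Ioo.mem_nhds hs) fun r hr => ?_)
            by_cases hrS : r ∈ S
            · rw [piecewise_eq_of_mem _ _ _ hrS]; exact heq ⟨hrS, hr⟩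
            · rw [piecewise_eq_of_notMem _ _ _ hrS]
        · rw [(hS 0 a3).self_of_nhds, a5]
        · rw [((hS 0 a3).fun_comp e).deriv_eq, a6]
        · rw [Real.dist_eq, abs_lt] at h2
          exact ⟨by linarith [h2.1], by linarith [h2.2]⟩
      · refine isOpen_iff_mem_nhds.2 ?_
        rintro t ⟨γ, S, h1, h2⟩
        exact mem_of_superset (h1.1.mem_nhds h2) fun s hs => ⟨γ, S, h1, hs⟩
    have h0 : (0 : ℝ) ∈ {t : ℝ | ∃ γ S, Adm γ S ∧ t ∈ S} := by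
      obtain ⟨ε, hε, hsh⟩ := geod_short g (ip (g.g e (e x)) v v) x
      obtain ⟨γ, c1, c2, c3⟩ := hsh.self_of_nhds e he hx v le_rfl
      have : (0 : ℝ) ∈ Ioo (-ε) ε := ⟨by linarith, hε⟩
      exact ⟨γ, Ioo (-ε) ε, ⟨isOpen_Ioo, isPreconnected_Ioo, this, c1, c2, c3⟩, this⟩
    have := hA.eq_univ ⟨0, h0⟩
    exact fun t => (this ▸ mem_univ t : t ∈ {t : ℝ | ∃ γ S, Adm γ S ∧ t ∈ S})
  choose Γ S hΓ hS using hall
  have hloc : ∀ t, (fun s => Γ s s) =ᶠ[𝓝 t] Γ t := fun t =>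
    eventually_of_mem ((hΓ t).1.mem_nhds (hS t)) fun s hs =>
      huniq _ _ _ _ (hΓ s) (hΓ t) ⟨hS s, hs⟩
  refine ⟨fun s => Γ s s, isGeodesic_iff.2 fun t => ((hΓ t).2.2.2.1 t (hS t)).congr (hloc t),
    (hΓ 0).2.2.2.2.1, ?_⟩
  rw [((hloc 0).fun_comp e).deriv_eq]
  exact (hΓ 0).2.2.2.2.2

theorem Compat.gc [CompleteSpace M] (hg : Compat g) : GC g :=
  ⟨fun _ he _ hx v => geod_exists hg he hx v⟩

end Vale.Agent.P219.R
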