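import Vale.Agent.P219.Cover
import Vale.Agent.P219.ExpS

/-!
The Cartan-Hadamard theorem.
-/

open scoped ContDiff Topology Manifold Bundle
open Set Filter

set_option maxSynthPendingDepth 3

noncomputable section

namespace Vale.Agent.P219.R

variable {n : ℕ} {b : ℝ}

variable {M : Type*} [MetricSpace M] [ChartedSpace (E n) M] [IsManifold 𝓘(ℝ, E n) ∞ M]
  [SimplyConnectedSpace M] {g : RMetric n M} [GC g] {e : OpenPartialHomeomorph M (E n)}


theorem Sec.bijective (h : Sec g b) (he : e ∈ At n M) {x : M} (hx : x ∈ e.source) :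
    Function.Bijective (expm g e x) := by
  have hc := expm_cover he hx (h.expInj he hx)
  have : LocallyPathConnectedSpace M := ChartedSpace.locallyPathConnectedSpace (E n) M
  obtain ⟨s, ⟨hs0, hs⟩, -⟩ := hc.existsUnique_continuousMap_lifts (ContinuousMap.id M)
    (expm g e x 0) 0 rfl
  have hs1 : ∀ y, expm g e x (s y) = y := fun y => congrFun hs y
  have h2 : (fun v => s (expm g e x v)) = id :=
    hc.eq_of_comp_eq (s.continuous.comp hc.continuous) continuous_id
      (funext fun v => hs1 _) 0 hs0
  exact ⟨Function.LeftInverse.injective (g := s) fun v => congrFun h2 v,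
    Function.RightInverse.surjective (g := s) hs1⟩

omit [SimplyConnectedSpace M] in
theorem glob_smooth (he : e ∈ At n M) {x : M} (hx : x ∈ e.source)
    {c : OpenPartialHomeomorph M (E n)} (hc : c ∈ At n M) {v : E n}
    (hv : expm g e x v ∈ c.source) : ContDiffAt ℝ ∞ (fun w => c (expm g e x w)) v := by
  have h0 : e.symm (e x) = x := e.left_inv hx
  have h1 := (geo_smooth g he (v := v) (e.map_source hx) 1).2 c hc (by rw [h0]; exact hv)
  have h2 : ContDiffAt ℝ ∞ (fun w : E n => ((e x, w) : E n × E n)) v :=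
    contDiffAt_const.prodMk contDiffAt_id
  have h3 := (h1.comp v h2).fst
  simp only [Function.comp_def, st, h0] at h3
  exact h3

theorem Sec.exists_global (h : Sec g b) :
    ∃ ψ : M ≃ₜ E n, ψ.toOpenPartialHomeomorph ∈ At n M := by
  obtain ⟨x⟩ : Nonempty M := inferInstance
  have he := chart_mem n x
  have hx := mem_chart_source (E n) x
  have hi := h.expInj he hx
  obtain ⟨φ, hφ⟩ : ∃ φ : E n ≃ₜ M, ∀ v, φ v = expm g (chartAt (E n) x) x v :=
    ⟨(cv_local he hx hi).toHomeomorphOfBijective (h.bijective he hx), fun _ => rfl⟩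
  refine ⟨φ.symm, fun c hc => ?_⟩
  have hc' : c ∈ At n M := IsManifold.subset_maximalAtlas hc
  have hf : ⇑(φ.toOpenPartialHomeomorph.trans c) =
      fun w => c (expm g (chartAt (E n) x) x w) := funext fun w => congrArg c (hφ w)
  have h1 : ∀ v ∈ (φ.toOpenPartialHomeomorph.trans c).source,
      expm g (chartAt (E n) x) x v ∈ c.source := fun v hv => by
    rw [← hφ]
    exact hv.2
  have h2 : ContDiffOn ℝ ∞ (φ.toOpenPartialHomeomorph.trans c)
      (φ.toOpenPartialHomeomorph.trans c).source := fun v hv => by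
    rw [hf]
    exact (glob_smooth he hx hc' (h1 v hv)).contDiffWithinAt
  have h3 : ContDiffOn ℝ ∞ (φ.toOpenPartialHomeomorph.trans c).symm
      (φ.toOpenPartialHomeomorph.trans c).target := fun y hy => by
    have hy' := (φ.toOpenPartialHomeomorph.trans c).map_target hy
    obtain ⟨A, hA, -⟩ := cv_strict he hx hi _ hc' (h1 _ hy')
    refine ((φ.toOpenPartialHomeomorph.trans c).contDiffAt_symm (f₀' := A) hy ?_
      ?_).contDiffWithinAt
    · rw [hf]
      exact hA.hasFDerivAt
    · rw [hf]
      exact glob_smooth he hx hc' (h1 _ hy')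
  have h4 : φ.toOpenPartialHomeomorph.trans c ∈ contDiffGroupoid ∞ 𝓘(ℝ, E n) := by
    refine mem_groupoid_of_pregroupoid.2 ⟨?_, ?_⟩
    · simpa only [contDiffPregroupoid, mfld_simps] using h2
    · simpa only [contDiffPregroupoid, mfld_simps] using h3
  exact ⟨h4, (contDiffGroupoid ∞ 𝓘(ℝ, E n)).symm h4⟩


end Vale.Agent.P219.R
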