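import Vale.Agent.P219.MkGeo
import Vale.Agent.P219.LDefs

/-!
Equality in the Hessian comparison.
-/

open scoped ContDiff Topology Manifold Bundle
open Set Filter

set_option maxSynthPendingDepth 3

noncomputable section

namespace Vale.Agent.P219.R

variable {n : ℕ} {b : ℝ}

theorem lrig_scalar {F F1 F2 : ℝ → ℝ} {c W : ℝ} (hW : 0 < W)
    (h1 : ∀ t, HasDerivAt F (F1 t) t) (h2 : ∀ t, HasDerivAt F1 (F2 t) t) (h0 : ∀ t, 0 ≤ F t)
    (hF : F 0 = 0) (hF2 : F2 0 = 2 * W) (hq : ∀ t, F1 t ^ 2 + 4 * c ^ 2 * F t ^ 2 ≤ 2 * F t * F2 t)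
    (he : 2 * Real.cosh c * F 1 = sn c 1 * F1 1) : F 1 = W * sn c 1 ^ 2 := by
  have hF1 : F1 0 = 0 := by
    have := hq 0
    rw [hF] at this
    nlinarith [sq_nonneg (F1 0)]
  have m1 : Monotone F1 := monotone_of_hasDerivAt_nonneg h2 (jo_F2 h1 h2 h0 hq)
  have l1 : Tendsto (fun t => F1 t / t) (𝓝[>] 0) (𝓝 (2 * W)) := hF2 ▸ jo_slope (h2 0) hF1
  have l2 : Tendsto (fun t => F t / t ^ 2) (𝓝[>] 0) (𝓝 W) := by
    refine HasDerivAt.lhopital_zero_nhdsGT (f' := F1) (g' := fun t => 2 * t)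
      (Eventually.of_forall h1) (Eventually.of_forall fun t => by simpa using hasDerivAt_pow 2 t)
      (eventually_of_mem self_mem_nhdsWithin fun t ht => mul_ne_zero two_ne_zero (ne_of_gt ht))
      ?_ ?_ ?_
    · have := (h1 0).continuousAt.tendsto
      rw [hF] at this
      exact this.mono_left nhdsWithin_le_nhds
    · exact ((continuous_pow 2).tendsto' 0 0 (by simp)).mono_left nhdsWithin_le_nhds
    · have := l1.div_const 2
      rw [mul_div_cancel_left₀ _ two_ne_zero] at this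
      exact this.congr fun t => by ring
  have p1 : ∀ t > 0, 0 < F1 t := by
    intro t ht
    obtain ⟨s, hs1, hs2⟩ := ((l1.eventually (lt_mem_nhds (show (0 : ℝ) < 2 * W by positivity))).and
      (Ioo_mem_nhdsGT ht)).exists
    exact ((div_pos_iff_of_pos_right hs2.1).1 hs1).trans_le (m1 hs2.2.le)
  have p2 : ∀ t > 0, 0 < F t := by
    intro t ht
    have := strictMonoOn_of_deriv_pos (convex_Ici 0)
      (fun s _ => (h1 s).continuousAt.continuousWithinAt)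
      (fun s hs => by rw [interior_Ici] at hs; rw [(h1 s).deriv]; exact p1 s hs)
      (mem_Ici.2 le_rfl) (mem_Ici.2 ht.le) ht
    rwa [hF] at this
  have d1 : ∀ t > 0, HasDerivAt (fun t => √(F t)) (F1 t / (2 * √(F t))) t := fun t ht =>
    (h1 t).sqrt (p2 t ht).ne'
  have d2 : ∀ t > 0, HasDerivAt
      (fun t => F1 t / (2 * √(F t)) * sn c t - √(F t) * Real.cosh (c * t))
      ((2 * F t * F2 t - F1 t ^ 2 - 4 * c ^ 2 * F t ^ 2) * sn c t / (4 * F t * √(F t))) t := by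
    intro t ht
    have e1 := Real.sqrt_pos.2 (p2 t ht)
    have e2 := Real.mul_self_sqrt (p2 t ht).le
    refine ((((h2 t).div ((d1 t ht).const_mul 2) (by positivity)).mul (jo_sn_deriv c t)).sub
      ((d1 t ht).mul (jo_cosh_deriv c t))).congr_deriv ?_
    simp only [Pi.div_apply]
    generalize √(F t) = f at e1 e2 ⊢
    rw [← e2]
    field_simp
    ring
  have l3 : Tendsto (fun t => F1 t / (2 * √(F t)) * sn c t - √(F t) * Real.cosh (c * t))
      (𝓝[>] 0) (𝓝 0) := by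
    have a1 : Tendsto (fun t => F1 t / t / (2 * √(F t / t ^ 2))) (𝓝[>] 0)
        (𝓝 (2 * W / (2 * √W))) :=
      l1.div (l2.sqrt.const_mul 2) (by have := Real.sqrt_pos.2 hW; positivity)
    have a2 : Tendsto (sn c) (𝓝[>] 0) (𝓝 0) := by
      have := (jo_sn_deriv c 0).continuousAt.tendsto
      rw [jo_sn_zero] at this
      exact this.mono_left nhdsWithin_le_nhds
    have a3 : Tendsto (fun t => √(F t) * Real.cosh (c * t)) (𝓝[>] 0)
        (𝓝 (√(F 0) * Real.cosh (c * 0))) :=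
      ((h1 0).continuousAt.sqrt.mul (jo_cosh_deriv c 0).continuousAt).tendsto.mono_left
        nhdsWithin_le_nhds
    have a4 := (a1.mul a2).sub a3
    rw [hF, Real.sqrt_zero, mul_zero, zero_mul, sub_zero] at a4
    refine a4.congr' ?_
    filter_upwards [self_mem_nhdsWithin] with t ht
    have ht' : (0 : ℝ) < t := ht
    have e1 := Real.sqrt_pos.2 (p2 t ht)
    rw [Real.sqrt_div (h0 t), Real.sqrt_sq ht'.le]
    field_simp
  obtain ⟨g1, g2⟩ := jo_le d2 (fun s hs => div_nonneg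
    (mul_nonneg (by linarith [hq s]) (jo_sn_pos c hs).le)
    (mul_nonneg (mul_nonneg (by norm_num) (h0 s)) (Real.sqrt_nonneg _))) l3
  have g3 : ∀ t > 0, F1 t / (2 * √(F t)) * sn c t - √(F t) * Real.cosh (c * t) =
      (sn c t * F1 t - 2 * Real.cosh (c * t) * F t) / (2 * √(F t)) := by
    intro t ht
    have e1 := Real.sqrt_pos.2 (p2 t ht)
    have e2 := Real.mul_self_sqrt (p2 t ht).le
    generalize √(F t) = f at e1 e2 ⊢
    rw [← e2]
    field_simp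
  have k1 : ∀ t > 0, t ≤ 1 → sn c t * F1 t - 2 * Real.cosh (c * t) * F t = 0 := by
    intro t ht ht1
    have a1 : F1 t / (2 * √(F t)) * sn c t - √(F t) * Real.cosh (c * t) ≤
      F1 1 / (2 * √(F 1)) * sn c 1 - √(F 1) * Real.cosh (c * 1) := g1 ht (mem_Ioi.2 one_pos) ht1
    rw [g3 1 one_pos, mul_one, he, sub_self, zero_div] at a1
    have a2 := le_antisymm a1 (g2 t ht)
    have e1 := Real.sqrt_pos.2 (p2 t ht)
    rw [g3 t ht, div_eq_zero_iff] at a2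
    exact a2.resolve_right (by positivity)
  have d3 : ∀ t > 0, HasDerivAt (fun t => F t / sn c t ^ 2)
      ((sn c t * F1 t - 2 * Real.cosh (c * t) * F t) / sn c t ^ 3) t := by
    intro t ht
    have e1 := jo_sn_pos c ht
    refine ((h1 t).div ((jo_sn_deriv c t).pow 2) (pow_pos e1 2).ne').congr_deriv ?_
    simp only [Pi.pow_apply]
    field_simp
    ring
  have l4 : Tendsto (fun t => F t / sn c t ^ 2) (𝓝[>] 0) (𝓝 W) := by
    have a1 := jo_slope (jo_sn_deriv c 0) (jo_sn_zero c)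
    rw [mul_zero, Real.cosh_zero] at a1
    have a2 := l2.div (a1.pow 2) (by norm_num)
    rw [one_pow, div_one] at a2
    refine a2.congr' ?_
    filter_upwards [self_mem_nhdsWithin] with t ht
    have ht' : (0 : ℝ) < t := ht
    have e1 := jo_sn_pos c ht'
    simp only [Pi.div_apply]
    field_simp
  have k2 : ∀ t ∈ Ioo (0 : ℝ) 1, F 1 / sn c 1 ^ 2 = F t / sn c t ^ 2 := fun t ht =>
    constant_of_has_deriv_right_zero (f := fun t => F t / sn c t ^ 2)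
      (fun s hs => (d3 s (ht.1.trans_le hs.1)).continuousAt.continuousWithinAt)
      (fun s hs => by
        have a1 := d3 s (ht.1.trans_le hs.1)
        rw [k1 s (ht.1.trans_le hs.1) hs.2.le, zero_div] at a1
        exact a1.hasDerivWithinAt) 1 ⟨ht.2.le, le_rfl⟩
  have k3 := tendsto_nhds_unique (tendsto_const_nhds.congr'
    (eventually_of_mem (Ioo_mem_nhdsGT one_pos) k2)) l4
  exact (div_eq_iff (pow_pos (jo_sn_pos c one_pos) 2).ne').1 k3

theorem Xd.lrig_cmp (X : Xd n b) {q : ℝ → ℝ} {o v w : E n} (hq : MQ b q) (h : X.G o w v = 0)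
    (he : 2 * (1 + b ^ 2 * q (X.G o v v)) * jsq X.G X.ex o v w 1 =
      2 * deriv q (X.G o v v) * deriv (jsq X.G X.ex o v w) 1) :
    jsq X.G X.ex o v w 1 = (2 * deriv q (X.G o v v)) ^ 2 * X.G o w w := by
  rcases eq_or_ne w 0 with rfl | hw
  · simp [X.Lg_zero]
  obtain ⟨F1, F2, h1, h2, h3, h4⟩ := X.jac o v w h
  obtain ⟨r, hr0, hr⟩ : ∃ r : ℝ, 0 ≤ r ∧ X.G o v v = r ^ 2 :=
    ⟨√(X.G o v v), Real.sqrt_nonneg _, (Real.sq_sqrt (X.Lg_nonneg o v)).symm⟩
  have := lrig_scalar (c := b * r) ((X.pd o).pos w hw) h1 h2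
    (fun t => X.Lg_nonneg _ _) (by simp [jsq]) h3 (fun t => by rw [mul_pow b, ← hr]; exact h4 t)
  simp only [Lg_sn hq, mul_one, hq.cosh] at this
  rw [(h1 1).deriv, hr] at he
  rw [this he, hr, mul_comm]

theorem Xd.lrig_ray (X : Xd n b) {q : ℝ → ℝ} (hq : MQ b q) {o v v' : E n} {t : ℝ} (h0 : 0 ≤ t)
    (h1 : t ≤ 1) (h : (2 * deriv q (X.G o v' v')) • v' = t • (2 * deriv q (X.G o v v)) • v) :
    ∃ l ∈ Icc (0 : ℝ) 1, v' = l • v := by
  have p := hq.pos _ (X.Lg_nonneg o v)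
  have p' := hq.pos _ (X.Lg_nonneg o v')
  have e : v' = (t * (2 * deriv q (X.G o v v)) / (2 * deriv q (X.G o v' v'))) • v := by
    rw [div_eq_inv_mul, mul_smul, mul_smul, ← h, inv_smul_smul₀ (by positivity)]
  rcases eq_or_ne v 0 with rfl | hv
  · exact ⟨0, ⟨le_rfl, zero_le_one⟩, by rw [e, smul_zero, smul_zero]⟩
  obtain ⟨l, hl⟩ : ∃ l, l = t * (2 * deriv q (X.G o v v)) / (2 * deriv q (X.G o v' v')) := ⟨_, rfl⟩
  rw [← hl] at e
  have l0 : 0 ≤ l := by rw [hl]; positivity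
  refine ⟨l, ⟨l0, ?_⟩, e⟩
  obtain ⟨r, hr0, hr⟩ : ∃ r : ℝ, 0 < r ∧ X.G o v v = r ^ 2 :=
    ⟨√(X.G o v v), Real.sqrt_pos.2 ((X.pd o).pos v hv), (Real.sq_sqrt (X.Lg_nonneg o v)).symm⟩
  have hr' : X.G o v' v' = (l * r) ^ 2 := by rw [e, X.Rauch_smul, hr, mul_pow]
  rw [eq_div_iff (by positivity), hr, hr'] at hl
  have h2 : sn b (l * r) ≤ sn b r := by
    rw [← hq.d1, ← hq.d1]
    rw [hr] at p
    have h3 := mul_le_mul_of_nonneg_right h1 (show 0 ≤ 2 * r * deriv q (r ^ 2) by positivity)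
    have h4 := congrArg (r * ·) hl
    linarith
  have h3 := hq.mono.le_iff_le.1 h2
  exact le_of_mul_le_mul_right (by linarith) hr0

theorem Xd.geo_rig (X : Xd n b) {q : ℝ → ℝ} {Φ : Frame n} (hq : MQ b q) (hΦ : X.ON Φ) :
    (X.geo hq hΦ).Rig := by
  intro o x hH x' t h0 h1 hx ξ
  obtain ⟨v, rfl⟩ := (X.bij o).2 x
  obtain ⟨v', rfl⟩ := (X.bij o).2 x'
  have hx' : Φ.gr (X.sig q (X.ex o v')) o = t • Φ.gr (X.sig q (X.ex o v)) o := hx
  rw [X.xi_eq hq hΦ, X.xi_eq hq hΦ, smul_neg, neg_inj] at hx'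
  have h2 := congrArg (Φ.F o) hx'
  simp only [map_smul, Φ.right] at h2
  obtain ⟨l, hl, rfl⟩ := X.lrig_ray hq h0 h1 h2
  obtain ⟨w, α, hw, hξ⟩ := X.Rauch_dec Φ o (l • v) ξ
  suffices jsq X.G X.ex o (l • v) w 1 = (2 * deriv q (X.G o (l • v) (l • v))) ^ 2 * X.G o w w by
    show ‖fderiv ℝ (fun y => Φ.gr (X.sig q y) o) (X.ex o (l • v)) (Φ.F (X.ex o (l • v)) ξ)‖ ^ 2 =
      ‖ξ‖ ^ 2 + b ^ 2 * inner ℝ (Φ.gr (X.sig q o) (X.ex o (l • v))) ξ ^ 2
    linarith [X.Rauch_id hq hΦ hw hξ]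
  rcases eq_or_ne l 0 with rfl | hl0
  · simp [jsq, X.zero, X.dzero, hq.d0]
  have hw' : X.G o w v = 0 := by simpa [hl0] using hw
  refine X.cmp3 hq hw' (X.lrig_cmp hq hw' ?_) hl
  have hξ' := Φ.right (X.ex o v) (fderiv ℝ (X.ex o) v w)
  have h3 : inner ℝ (Φ.B (Φ.gr (X.sig q o)) (X.ex o v) _) _ =
    (1 + b ^ 2 * X.sig q o (X.ex o v)) * ‖Φ.Fi (X.ex o v) (fderiv ℝ (X.ex o) v w)‖ ^ 2 := hH _
  have n1 : ‖Φ.Fi (X.ex o v) (fderiv ℝ (X.ex o) v w)‖ ^ 2 = jsq X.G X.ex o v w 1 := by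
    rw [jsq, one_smul, one_smul, ← X.norm_Fi hΦ, real_inner_self_eq_norm_sq]
  rw [X.hg_key hq hΦ o v w hξ', hw', n1, X.sig_ex] at h3
  linarith

end Vale.Agent.P219.R
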