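import Vale.Agent.P219.Final
import Vale.Agent.P219.LIso
import Vale.Agent.P219.LRig

/-!
The generalized Cartan-Hadamard isoperimetric inequality in all dimensions.
-/

open scoped ContDiff Topology Manifold Bundle ENNReal
open MeasureTheory Set Filter

set_option maxSynthPendingDepth 3

noncomputable section

namespace Vale.Agent.P219

variable {n k : ℕ} {M : Type*} [MetricSpace M]

namespace R

variable [ChartedSpace (E n) M] [IsManifold 𝓘(ℝ, E n) ∞ M]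
  [Bundle.RiemannianBundle fun x : M => TangentSpace 𝓘(ℝ, E n) x]
  [IsContMDiffRiemannianBundle 𝓘(ℝ, E n) ∞ (E n) fun x : M => TangentSpace 𝓘(ℝ, E n) x]
  [IsRiemannianManifold 𝓘(ℝ, E n) M] [CompleteSpace M] [SimplyConnectedSpace M]

theorem exists_geo_rig {κ : ℝ} (hκ : κ ≤ 0) (hsec : SecLe n M κ) :
    ∃ (Γ : Geo n √(-κ)) (ψ : M ≃ₜ E n), Γ.Rig ∧ Γ.Bilip ψ ∧ ψ.toOpenPartialHomeomorph ∈ At n M ∧
      (∀ x (v : TangentSpace 𝓘(ℝ, E n) x), ‖v‖ = ‖Γ.Fi (ψ x) (dmap n ψ x v)‖) ∧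
      ∀ A : Set M, Bornology.IsBounded A → Bornology.IsBounded (ψ '' A) := by
  obtain ⟨g, hg1, hg2, hg3⟩ := exists_rmetric n M
  have := hg2.gc
  have hs : Sec g √(-κ) := fun x u v => by
    have h1 : (fun y u v => ip (g.g (chartAt (E n) x) y) u v) = chartMetric n (chartAt (E n) x) := by
      funext y u v
      exact hg1 _ y u v
    rw [Real.sq_sqrt (by linarith), neg_neg, riem_eq, h1, hg1, hg1, hg1, hg1]
    exact hsec _ (chart_mem_atlas _ x) _ (mem_chart_target _ x) u v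
  obtain ⟨ψ, hψ⟩ := hs.exists_global
  obtain ⟨X, hX1, hX2⟩ := hs.exists_xd (Real.sqrt_nonneg _) hg2 ψ hψ
  obtain ⟨q, hq⟩ := exists_mq X.b0
  obtain ⟨Φ, hΦ⟩ := X.exists_frame
  have h1 : ∀ p p', (X.geo hq hΦ).σ (ψ p) (ψ p') = q (dist p p' ^ 2) := fun p p' => by
    rw [hq.eq, ← hX2]
    exact X.sig_eq hq _ _
  refine ⟨X.geo hq hΦ, ψ, X.geo_rig hq hΦ, bilip_of _ hq h1, hψ, fun x v => ?_, fun A hA => ?_⟩
  · have h2 := hg3 _ hψ x (mem_univ x) v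
    have h3 := X.norm_Fi hΦ (ψ x) (dmap n ψ x v) (dmap n ψ x v)
    rw [real_inner_self_eq_norm_sq, hX1] at h3
    exact (sq_eq_sq₀ (norm_nonneg _) (norm_nonneg _)).1 (h2.trans h3.symm)
  · obtain ⟨r, hr⟩ := hA.subset_closedBall (ψ.symm 0)
    obtain ⟨C, hC⟩ := (isCompact_Icc (a := 0) (b := r ^ 2)).bddAbove_image
      hq.smooth.continuous.continuousOn
    refine (((X.geo hq hΦ).isCompact_le 0 C).isBounded).subset ?_
    rintro _ ⟨p, hp, rfl⟩
    have h2 := h1 (ψ.symm 0) p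
    rw [ψ.apply_symm_apply] at h2
    have h3 : dist (ψ.symm 0) p ≤ r := by rw [dist_comm]; exact hr hp
    rw [mem_setOf_eq, h2]
    exact hC ⟨_, ⟨sq_nonneg _, pow_le_pow_left₀ dist_nonneg h3 2⟩, rfl⟩

end R

theorem lmain (hk1 : 1 ≤ k) {κ : ℝ} (hκ : κ ≤ 0) [ChartedSpace (E (k + 1)) M]
    [IsManifold 𝓘(ℝ, E (k + 1)) ∞ M]
    [Bundle.RiemannianBundle fun x : M => TangentSpace 𝓘(ℝ, E (k + 1)) x]
    [IsContMDiffRiemannianBundle 𝓘(ℝ, E (k + 1)) ∞ (E (k + 1))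
      fun x : M => TangentSpace 𝓘(ℝ, E (k + 1)) x]
    [IsRiemannianManifold 𝓘(ℝ, E (k + 1)) M] [CompleteSpace M] [SimplyConnectedSpace M]
    [MeasurableSpace M] [BorelSpace M] (hsec : SecLe (k + 1) M κ) {Ω : Set M}
    (hΩ : IsDomain (k + 1) Ω) :
    μHE[k + 1] Ω ≠ ⊤ ∧
      ENNReal.ofReal (profile (k + 1) κ (μHE[k + 1] Ω).toReal) ≤ μHE[k] (frontier Ω) ∧
      (Ω.Nonempty → μHE[k] (frontier Ω) = ENNReal.ofReal (profile (k + 1) κ (μHE[k + 1] Ω).toReal) →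
        IsModelBall (k + 1) κ Ω) := by
  obtain ⟨Γ, ψ, hR, h1, h2, h3, h4⟩ := R.exists_geo_rig hκ hsec
  have hD := fin_dom h2 hΩ (h4 Ω hΩ.2.1)
  have hA : BM (ψ '' Ω) := ⟨hD.isOpen.measurableSet, hD.bdd⟩
  have hint := hA.integrableOn Γ.m_smooth.continuous
  have hV0 : 0 ≤ ∫ x in ψ '' Ω, Γ.m x := integral_nonneg fun x => (Γ.m_pos x).le
  have hV : μHE[k + 1] Ω ≤ ENNReal.ofReal (∫ x in ψ '' Ω, Γ.m x) := by
    have h5 := Γ.vol_le ψ h1 hA.meas
    rwa [preimage_image_eq _ ψ.injective, ← ofReal_integral_eq_lintegral_ofReal hint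
      (Eventually.of_forall fun x => (Γ.m_pos x).le)] at h5
  have hV1 := ENNReal.toReal_le_of_le_ofReal hV0 hV
  have hP : Γ.per (ψ '' Ω) ≤ μHE[k] (frontier Ω) := by
    have h5 := Γ.per_le_area ψ h1 hD
    rwa [← ψ.image_frontier, preimage_image_eq _ ψ.injective] at h5
  refine ⟨ne_top_of_le_ne_top ENNReal.ofReal_ne_top hV, ?_, fun hne he => ?_⟩
  · by_cases hfin : Γ.per (ψ '' Ω) = ⊤
    · rw [hfin, top_le_iff] at hP
      rw [hP]
      exact le_top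
    refine le_trans ?_ hP
    rw [← ENNReal.ofReal_toReal hfin]
    exact ENNReal.ofReal_le_ofReal (profile_le hk1 hκ ENNReal.toReal_nonneg ENNReal.toReal_nonneg
      (hV1.trans (Γ.liso hk1 hA hfin)))
  rw [he] at hP
  have hfin := ne_top_of_le_ne_top ENNReal.ofReal_ne_top hP
  have h0 : volume (ψ '' Ω) ≠ 0 := (hD.isOpen.measure_pos _ (hne.image ψ)).ne'
  have hP0 : Γ.per (ψ '' Ω) ≠ 0 := fun h => h0 (Γ.vol_zero hA h)
  have h5 : (Γ.per (ψ '' Ω)).toReal ≤ profile (k + 1) κ (μHE[k + 1] Ω).toReal := by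
    rw [← ENNReal.ofReal_toReal hfin] at hP
    rcases ENNReal.ofReal_le_ofReal_iff'.1 hP with h | h
    · exact h
    · exact absurd h (ENNReal.toReal_pos hP0 hfin).not_ge
  obtain ⟨ρ, T, h11, h12, h13, h14, h15⟩ := Γ.lmodel hk1 hR hD (hne.image ψ) hfin
    ((le_profile hk1 hκ ENNReal.toReal_nonneg ENNReal.toReal_nonneg h5).trans hV1)
  rw [Real.sq_sqrt (by linarith)] at h12 h15
  have h16 : ContMDiff 𝓘(ℝ, E (k + 1)) 𝓘(ℝ, E (k + 1)) ∞ ψ :=
    contMDiffOn_univ.1 (contMDiffOn_of_mem_maximalAtlas h2)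
  refine ⟨ρ, T ∘ ψ, h11, by linarith, (h13.contMDiff.comp h16).contMDiffOn,
    h14.comp (ψ.injective.injOn.bijOn_image), fun x hx v => ?_⟩
  have h17 : dmap (k + 1) (T ∘ ψ) x v = fderiv ℝ T (ψ x) (dmap (k + 1) ψ x v) := by
    have h18 := ((h13.differentiable (by simp) (ψ x)).hasFDerivAt.hasMFDerivAt.comp x
      (h16.mdifferentiable (by simp) x).hasMFDerivAt).mfderiv
    rw [dmap, h18]
    rfl
  rw [h3, h15 _ (mem_image_of_mem _ hx), h17]
  congr 1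
  simp only [Function.comp_apply]
  ring

end Vale.Agent.P219
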