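import Vale.Agent.P219.MkXd
import Vale.Agent.P219.GeodC
import Vale.Agent.P219.Bridge
import Vale.Agent.P219.Frm
import Vale.Agent.P219.Rauch
import Vale.Agent.P219.HessG
import Vale.Agent.P219.Ge2

/-!
A Cartan-Hadamard manifold in a global chart.
-/

open scoped ContDiff Topology Manifold Bundle
open Set Filter

set_option maxSynthPendingDepth 3

noncomputable section

namespace Vale.Agent.P219.R

variable {n : ℕ} {b : ℝ}

/-- The structure defined by the exponential maps. -/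
def Xd.geo (X : Xd n b) {q : ℝ → ℝ} {Φ : Frame n} (hq : MQ b q) (hΦ : X.ON Φ) : Geo n b where
  toFrame := Φ
  σ := X.sig q
  b0 := X.b0
  smooth := X.sig_smooth hq
  symm := X.sig_symm hq
  self := X.sig_self hq
  pos := X.sig_pos hq
  bdd := X.sig_bdd hq
  grad := X.sig_grad hq hΦ
  hess := X.sig_hess hq hΦ
  hess0 := X.sig_hess0 hq hΦ
  rauch := X.sig_rauch hq hΦ
  bij := X.sig_bij hq hΦ
  conn := X.sig_conn hq
  rigid := X.sig_rigid hq hΦ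

theorem MQ.upper {q : ℝ → ℝ} (hq : MQ b q) {ε : ℝ} (hε : 0 < ε) :
    ∃ δ > 0, ∀ s, 0 ≤ s → s < δ → 2 * q s ≤ (1 + ε) * s := by
  have h0 : q 0 = 0 := by simpa [md] using hq.eq 0
  have h1 : HasDerivAt q (1 / 2) 0 := hq.d0 ▸ (hq.smooth.differentiable (by simp) 0).hasDerivAt
  have h2 := h1.tendsto_slope_zero_right.eventually
    (gt_mem_nhds (show (1 / 2 : ℝ) < (1 + ε) / 2 by linarith))
  obtain ⟨δ, hδ, h3⟩ := Metric.mem_nhdsWithin_iff.1 h2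
  refine ⟨δ, hδ, fun s hs hs' => ?_⟩
  rcases hs.eq_or_lt with rfl | hs
  · simp [h0]
  have h4 : s⁻¹ • (q (0 + s) - q 0) < (1 + ε) / 2 :=
    h3 ⟨by simpa [abs_of_pos hs] using hs', hs⟩
  rw [zero_add, h0, sub_zero, smul_eq_mul, inv_mul_lt_iff₀ hs] at h4
  linarith

theorem bilip_of {M : Type*} [MetricSpace M] (Γ : Geo n b) {q : ℝ → ℝ} (hq : MQ b q)
    {ψ : M → E n} (h : ∀ p p', Γ.σ (ψ p) (ψ p') = q (dist p p' ^ 2)) : Γ.Bilip ψ := by
  intro x₀ ε hε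
  obtain ⟨η, hη, hη1, hη2⟩ : ∃ η > 0, η < 1 ∧ 1 + η ≤ (1 + ε) ^ 2 * (1 - η) := by
    refine ⟨ε / (1 + ε) ^ 2, by positivity, ?_, ?_⟩
    · rw [div_lt_one (by positivity)]; nlinarith
    · have h1 : ε / (1 + ε) ^ 2 ≤ ε := div_le_self hε.le (by nlinarith)
      rw [mul_sub, mul_div_cancel₀ _ (by positivity)]
      nlinarith
  obtain ⟨U, hU, h1⟩ := Γ.taylor x₀ hη
  obtain ⟨δ, hδ, h2⟩ := hq.upper hη
  have h3 : ∀ᶠ z : E n × E n in 𝓝 (x₀, x₀), 2 * Γ.σ z.1 z.2 < δ :=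
    (continuous_const.mul Γ.cont).continuousAt.eventually_lt continuousAt_const
      (by simpa [Γ.self] using hδ)
  rw [nhds_prod_eq] at h3
  obtain ⟨pa, ha, pb, hb, h4⟩ := eventually_prod_iff.1 h3
  refine ⟨U ∩ ({x | pa x} ∩ {x | pb x}), inter_mem hU (inter_mem ha hb), fun p p' hp hp' => ?_⟩
  have h5 := abs_le.1 (h1 _ hp.1 _ hp'.1)
  have h6 := hq.lower _ (sq_nonneg (dist p p'))
  have h7 := h4 hp.2.1 hp'.2.2
  rw [h] at h5 h7
  have h8 := h2 _ (sq_nonneg (dist p p')) (by linarith)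
  have h9 := sq_nonneg ‖Γ.Fi x₀ (ψ p - ψ p')‖
  have h10 := sq_nonneg (dist p p')
  constructor
  · refine abs_le_of_sq_le_sq' ?_ (by positivity) |>.2
    rw [mul_pow]
    refine le_of_mul_le_mul_left ?_ (sub_pos.2 hη1)
    nlinarith [h5.1]
  · refine abs_le_of_sq_le_sq' ?_ (by positivity) |>.2
    rw [mul_pow]
    nlinarith [h5.2, mul_nonneg (sq_nonneg (1 + ε)) hη.le]

variable {M : Type*} [MetricSpace M] [ChartedSpace (E n) M] [IsManifold 𝓘(ℝ, E n) ∞ M]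
  [Bundle.RiemannianBundle fun x : M => TangentSpace 𝓘(ℝ, E n) x]
  [IsContMDiffRiemannianBundle 𝓘(ℝ, E n) ∞ (E n) fun x : M => TangentSpace 𝓘(ℝ, E n) x]
  [IsRiemannianManifold 𝓘(ℝ, E n) M] [CompleteSpace M] [SimplyConnectedSpace M]

theorem exists_geo {κ : ℝ} (hκ : κ ≤ 0) (hsec : SecLe n M κ) :
    ∃ (Γ : Geo n √(-κ)) (ψ : M ≃ₜ E n), Γ.Bilip ψ ∧ ψ.toOpenPartialHomeomorph ∈ At n M ∧
      (∀ x (v : TangentSpace 𝓘(ℝ, E n) x), ‖v‖ = ‖Γ.Fi (ψ x) (dmap n ψ x v)‖) ∧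
      ∀ A : Set M, Bornology.IsBounded A → Bornology.IsBounded (ψ '' A) := by
  obtain ⟨g, hg1, hg2, hg3⟩ := exists_rmetric n M
  have := hg2.gc
  have hs : Sec g √(-κ) := fun x u v => by
    have h1 : (fun y u v => ip (g.g (chartAt (E n) x) y) u v) = chartMetric n (chartAt (E n) x) := by
      funext y u v
      exact hg1 _ y u v
    rw [Real.sq_sqrt (by linarith), neg_neg, riem_eq, h1, hg1, hg1, hg1, hg1]
    exact hsec _ (chart_mem_atlas _ x) _ (mem_chart_target _ x) u v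
  obtain ⟨ψ, hψ⟩ := hs.exists_global
  obtain ⟨X, hX1, hX2⟩ := hs.exists_xd (Real.sqrt_nonneg _) hg2 ψ hψ
  obtain ⟨q, hq⟩ := exists_mq X.b0
  obtain ⟨Φ, hΦ⟩ := X.exists_frame
  have h1 : ∀ p p', (X.geo hq hΦ).σ (ψ p) (ψ p') = q (dist p p' ^ 2) := fun p p' => by
    rw [hq.eq, ← hX2]
    exact X.sig_eq hq _ _
  refine ⟨X.geo hq hΦ, ψ, bilip_of _ hq h1, hψ, fun x v => ?_, fun A hA => ?_⟩
  · have h2 := hg3 _ hψ x (mem_univ x) v
    have h3 := X.norm_Fi hΦ (ψ x) (dmap n ψ x v) (dmap n ψ x v)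
    rw [real_inner_self_eq_norm_sq, hX1] at h3
    exact (sq_eq_sq₀ (norm_nonneg _) (norm_nonneg _)).1 (h2.trans h3.symm)
  · obtain ⟨r, hr⟩ := hA.subset_closedBall (ψ.symm 0)
    obtain ⟨C, hC⟩ := (isCompact_Icc (a := 0) (b := r ^ 2)).bddAbove_image
      hq.smooth.continuous.continuousOn
    refine (((X.geo hq hΦ).isCompact_le 0 C).isBounded).subset ?_
    rintro _ ⟨p, hp, rfl⟩
    have h2 := h1 (ψ.symm 0) p
    rw [ψ.apply_symm_apply] at h2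
    have h3 : dist (ψ.symm 0) p ≤ r := by rw [dist_comm]; exact hr hp
    rw [mem_setOf_eq, h2]
    exact hC ⟨_, ⟨sq_nonneg _, pow_le_pow_left₀ dist_nonneg h3 2⟩, rfl⟩

end Vale.Agent.P219.R
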