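import Vale.Agent.P219.Glob
import Vale.Agent.P219.Lg

/-!
The exponential maps in the global chart.
-/

open scoped ContDiff Topology Manifold Bundle
open Set Filter

set_option maxSynthPendingDepth 3

noncomputable section

namespace Vale.Agent.P219.R

variable {n : ℕ} {b : ℝ}

variable {M : Type*} [MetricSpace M] [ChartedSpace (E n) M] [IsManifold 𝓘(ℝ, E n) ∞ M]
  [SimplyConnectedSpace M] {g : RMetric n M} [GC g] {e : OpenPartialHomeomorph M (E n)}


/-- The exponential map read in a global chart. -/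
def MkXd_ex (g : RMetric n M) (e : OpenPartialHomeomorph M (E n)) (o v : E n) : E n :=
  e (expm g e (e.symm o) v)

/-- A global chart. -/
structure MkXd_Gl (e : OpenPartialHomeomorph M (E n)) : Prop where
  he : e ∈ At n M
  hs : ∀ x, x ∈ e.source
  ht : ∀ y, y ∈ e.target

namespace MkXd_Gl

variable (H : MkXd_Gl e)
include H

omit [SimplyConnectedSpace M]

theorem smooth : ContDiff ℝ ∞ fun p : E n × E n => MkXd_ex g e p.1 p.2 :=
  contDiff_iff_contDiffAt.2 fun p => ((geo_smooth g H.he (H.ht p.1) 1).2 e H.he (H.hs _)).fst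

theorem smooth1 (o : E n) : ContDiff ℝ ∞ (MkXd_ex g e o) :=
  (H.smooth (g := g)).comp (contDiff_const.prodMk contDiff_id : ContDiff ℝ ∞ fun p : E n => (o, p))

theorem hasF (o v : E n) : HasFDerivAt (MkXd_ex g e o) (fderiv ℝ (MkXd_ex g e o) v) v :=
  ((H.smooth1 o).differentiable (by simp) v).hasFDerivAt

theorem smul (o v : E n) (t : ℝ) : MkXd_ex g e o (t • v) = e (geo g e (e.symm o) v t) := by
  rw [MkXd_ex, expm, geo_smul g H.he (H.hs _), mul_one]

theorem jac_eq (o v w : E n) (t : ℝ) :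
    jac g e (e.symm o) v w e t = fderiv ℝ (MkXd_ex g e o) (t • v) (t • w) := by
  have h1 := HasFDerivAt.comp (f := fun v : E n => t • v) v (H.hasF (g := g) o (t • v))
    ((hasFDerivAt_id v).const_smul t)
  have h2 : (MkXd_ex g e o ∘ fun v : E n => t • v) = fun v => e (geo g e (e.symm o) v t) :=
    funext fun v => H.smul o v t
  rw [h2] at h1
  rw [jac, h1.fderiv]
  rfl

theorem vel_eq (o v : E n) (t : ℝ) :
    deriv (e ∘ geo g e (e.symm o) v) t = fderiv ℝ (MkXd_ex g e o) (t • v) v := by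
  have h1 := HasFDerivAt.comp_hasDerivAt (f := fun t : ℝ => t • v) t (H.hasF (g := g) o (t • v))
    ((hasDerivAt_id t).smul_const v)
  have h2 : (MkXd_ex g e o ∘ fun t : ℝ => t • v) = e ∘ geo g e (e.symm o) v :=
    funext fun t => H.smul o v t
  rw [h2, one_smul] at h1
  exact h1.deriv

theorem zero (o : E n) : MkXd_ex g e o 0 = o := by
  have := H.smul (g := g) o 0 0
  rwa [zero_smul, (geo_spec g H.he (H.hs _) 0).2.1, e.right_inv (H.ht o)] at this

theorem dzero (o w : E n) : fderiv ℝ (MkXd_ex g e o) 0 w = w := by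
  have := H.vel_eq (g := g) o w 0
  rw [zero_smul, (geo_spec g H.he (H.hs _) w).2.2] at this
  exact this.symm

theorem flow (o v : E n) (s t : ℝ) :
    MkXd_ex g e (MkXd_ex g e o (s • v)) (t • fderiv ℝ (MkXd_ex g e o) (s • v) v) =
      MkXd_ex g e o ((s + t) • v) := by
  obtain ⟨h1, h2⟩ := (geo_spec g H.he (H.hs (e.symm o)) v).1.affine 1 s
  have h3 := congrFun (geo_eq H.he h1 (H.hs _)) t
  rw [h2 e H.he 0 (H.hs _)] at h3
  simp only [mul_zero, zero_add, one_smul, one_mul] at h3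
  rw [H.smul, H.smul, H.smul, ← H.vel_eq, e.left_inv (H.hs _), h3, add_comm]

theorem gauss (o v w : E n) : g.g e (MkXd_ex g e o v) (fderiv ℝ (MkXd_ex g e o) v w)
    (fderiv ℝ (MkXd_ex g e o) v v) = g.g e o w v := by
  have := R.gauss g H.he (H.hs (e.symm o)) v w H.he (H.hs _)
  rwa [H.jac_eq, H.vel_eq, one_smul, one_smul, e.right_inv (H.ht o)] at this

theorem jacobi (h : Sec g b) (o v w : E n) (hw : g.g e o w v = 0) : ∃ F1 F2 : ℝ → ℝ,
    (∀ t, HasDerivAt (jsq (g.g e) (MkXd_ex g e) o v w) (F1 t) t) ∧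
    (∀ t, HasDerivAt F1 (F2 t) t) ∧ F2 0 = 2 * g.g e o w w ∧
    ∀ t, F1 t ^ 2 + 4 * (b ^ 2 * g.g e o v v) * jsq (g.g e) (MkXd_ex g e) o v w t ^ 2 ≤
      2 * jsq (g.g e) (MkXd_ex g e) o v w t * F2 t := by
  obtain ⟨F, F1, F2, h0, h1, h2, -, h3, -, -, -, h4⟩ := h.jac_ode H.he (H.hs (e.symm o)) v w
  have hF : jsq (g.g e) (MkXd_ex g e) o v w = F := funext fun r => by
    rw [h0 e H.he r (H.hs _), H.jac_eq, ← H.smul]
    rfl
  simp only [e.right_inv (H.ht o), ip, hw] at h3 h4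
  rw [hF]
  exact ⟨F1, F2, h1, h2, h3, fun t => le_of_eq_of_le (by ring) (h4 t)⟩

theorem inj (h : Sec g b) (o v : E n) : Function.Injective (fderiv ℝ (MkXd_ex g e o) v) := by
  refine (injective_iff_map_eq_zero _).2 fun w hw => ?_
  refine h.expInj H.he (H.hs (e.symm o)) v w e H.he (H.hs _) ?_
  rwa [H.jac_eq, one_smul, one_smul]

theorem up (hg : Compat g) (o v : E n) :
    dist (e.symm o) (e.symm (MkXd_ex g e o v)) ≤ √(g.g e o v v) := by
  obtain ⟨h1, h2, -⟩ := geo_spec g H.he (H.hs (e.symm o)) v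
  have := hg.up (geo g e (e.symm o) v) 0 1 √(g.g e o v v) zero_le_one (Real.sqrt_nonneg _)
    fun r _ => ⟨h1.1.continuousAt, e, H.he, H.hs _, (h1.2 e H.he r (H.hs _)).1, by
      rw [geo_energy g H.he (H.hs _) v r H.he (H.hs _), e.right_inv (H.ht o)]
      exact (Real.sq_sqrt (ip_nonneg (g.pos e H.he o (H.ht o)) v)).ge⟩
  rwa [h2, sub_zero, mul_one, ← e.left_inv (H.hs (geo g e (e.symm o) v 1))] at this

theorem low (h : Sec g b) (hg : Compat g) (o v : E n) (hb : Function.Bijective (MkXd_ex g e o)) :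
    √(g.g e o v v) ≤ dist (e.symm o) (e.symm (MkXd_ex g e o v)) := by
  obtain ⟨K, h1, h2⟩ := Function.bijective_iff_has_inverse.1 hb
  have hK := (Lg_inv (H.smooth1 o) (H.inj h o) h1 h2).differentiable (by simp)
  have pd := fun y => g.pos e H.he y (H.ht y)
  refine le_of_forall_pos_le_add fun η hη => ?_
  have hp : ∀ v, 0 < g.g e o v v + η ^ 2 := fun v =>
    add_pos_of_nonneg_of_pos (ip_nonneg (pd o) v) (by positivity)
  have hd : ∀ v, HasFDerivAt (fun v => √(g.g e o v v + η ^ 2)) _ v := fun v =>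
    (((g.g e o).hasFDerivAt.clm_apply (hasFDerivAt_id v)).add_const (η ^ 2)).sqrt (hp v).ne'
  have key := hg.low (fun p => √(g.g e o (K (e p)) (K (e p)) + η ^ 2)) (fun x => by
    have hf : (fun p => √(g.g e o (K (e p)) (K (e p)) + η ^ 2)) ∘ e.symm =
        (fun v => √(g.g e o v v + η ^ 2)) ∘ K := funext fun y => by
      simp only [Function.comp_apply, e.right_inv (H.ht y)]
    obtain ⟨v, hv⟩ := hb.2 (e x)
    have d1 := (hd (K (e x))).comp (e x) (hK (e x)).hasFDerivAt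
    refine ⟨e, H.he, H.hs x, hf ▸ d1.differentiableAt, fun u => ?_⟩
    obtain ⟨w, rfl⟩ := (LinearMap.injective_iff_surjective
      (f := (fderiv ℝ (MkXd_ex g e o) v).toLinearMap)).1 (H.inj h o v) u
    rw [← hv] at d1 ⊢
    have d2 := d1.differentiableAt.hasFDerivAt.comp v (H.hasF o v)
    rw [Function.comp_assoc, h1.comp_eq_id, Function.comp_id] at d2
    have d3 := DFunLike.congr_fun (d2.unique (hd v)) w
    have a1 := ip_sq_le (pd (MkXd_ex g e o v)) (fderiv ℝ (MkXd_ex g e o) v w)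
      (fderiv ℝ (MkXd_ex g e o) v v)
    have a2 := ip_nonneg (pd (MkXd_ex g e o v)) (fderiv ℝ (MkXd_ex g e o) v w)
    simp only [ip, H.gauss] at a1 a2
    have a3 : (1 / (2 * √(g.g e o v v + η ^ 2)) * (g.g e o w v + g.g e o w v)) ^ 2 =
        g.g e o w v ^ 2 / (g.g e o v v + η ^ 2) := by
      have := Real.sqrt_pos.2 (hp v)
      conv_rhs => rw [← Real.sq_sqrt (hp v).le]
      field_simp
      ring
    rw [hf]
    refine le_of_eq_of_le (congrArg (· ^ 2) (d3.trans ?_)) (a3.trans_le ?_)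
    · simp [(pd o).symm v w, mul_add]
    · rw [div_le_iff₀ (hp v)]
      exact a1.trans (mul_le_mul_of_nonneg_left (le_add_of_nonneg_right (sq_nonneg η)) a2))
    (e.symm o) (e.symm (MkXd_ex g e o v))
  have h0 : K o = 0 := by
    conv_lhs => rw [← H.zero (g := g) o]
    exact h1 0
  rw [e.right_inv (H.ht _), e.right_inv (H.ht _), h1, h0, map_zero, zero_add,
    Real.sqrt_sq hη.le] at key
  have := Real.sqrt_le_sqrt (le_add_of_nonneg_right (a := g.g e o v v) (sq_nonneg η))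
  linarith

end MkXd_Gl

theorem Sec.exists_xd (h : Sec g b) (hb : 0 ≤ b) (hg : Compat g) (ψ : M ≃ₜ E n)
    (hψ : ψ.toOpenPartialHomeomorph ∈ At n M) : ∃ X : Xd n b,
      X.G = g.g ψ.toOpenPartialHomeomorph ∧ ∀ p q, X.d (ψ p) (ψ q) = dist p q := by
  have H : MkXd_Gl ψ.toOpenPartialHomeomorph := ⟨hψ, fun _ => trivial, fun _ => trivial⟩
  have hbij : ∀ o, Function.Bijective (MkXd_ex g ψ.toOpenPartialHomeomorph o) := fun o =>
    ψ.bijective.comp (h.bijective hψ (H.hs _))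
  refine ⟨⟨g.g ψ.toOpenPartialHomeomorph, MkXd_ex g ψ.toOpenPartialHomeomorph,
    fun x y => dist (ψ.symm x) (ψ.symm y), hb, contDiffOn_univ.1 (g.smooth _ hψ),
    fun x => g.pos _ hψ x trivial, H.smooth, H.zero, H.dzero, hbij, H.flow, H.gauss, H.jacobi h,
    fun o v => le_antisymm (H.up hg o v) (H.low h hg o v (hbij o)), fun _ _ => dist_comm _ _,
    fun _ _ _ => dist_triangle _ _ _⟩, rfl, fun p q => ?_⟩
  simp


end Vale.Agent.P219.R
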